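import Mathlib
import Vale.Agent.P150.Ent.Coupling

/-!
Notation for the second-order criterion for a coupling matrix and an external field, for P150.
-/

namespace Vale.Agent.P150.Crit

variable {n : ℕ}

/-- The local field at site `i`. -/
def fld (K : Fin n → Fin n → ℝ) (h : Fin n → ℝ) (x : Conf n) (i : Fin n) : ℝ :=
  ∑ j, K i j * spin (x j) + h i

/-- Half the difference of `f` at the two values of spin `i`. -/
noncomputable def grad (f : Conf n → ℝ) (x : Conf n) (i : Fin n) : ℝ :=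
  (f (Function.update x i true) - f (Function.update x i false)) / 2

/-- `f - Q_i f`, the part of `f` removed by resampling spin `i`. -/
noncomputable def resid (K : Fin n → Fin n → ℝ) (h : Fin n → ℝ) (f : Conf n → ℝ) (x : Conf n)
    (i : Fin n) : ℝ :=
  grad f x i * (spin (x i) - Real.tanh (fld K h x i))

/-- The second-order criterion: with `-L = ∑ i, (I - Q_i)`, one has
`E (L f)² ≥ (1 - max l (2 R) - C k R) E (f, -L f)`. -/
def CritStmt : Prop :=
  ∃ C k₀ : ℝ, 0 ≤ C ∧ 0 < k₀ ∧ ∀ (n : ℕ) (K : Fin n → Fin n → ℝ) (h : Fin n → ℝ) (l R k : ℝ),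
    (∀ i j, K i j = K j i) → (∀ i, K i i = 0) →
    (∀ v, Ent.qform K v ≤ l * ∑ j, v j ^ 2) → (∀ i, ∑ j, K i j ^ 2 ≤ R) → (∀ i j, |K i j| ≤ k) →
    k ≤ k₀ → 0 ≤ k → 0 ≤ R → 0 ≤ l → ∀ f : Conf n → ℝ,
    (1 - max l (2 * R) - C * k * R) * ∑ x, Ent.coupW K h x * ∑ i, resid K h f x i ^ 2
      ≤ ∑ x, Ent.coupW K h x * (∑ i, resid K h f x i) ^ 2

end Vale.Agent.P150.Crit
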