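import Mathlib

/-!
The algebraic core of the pair inequality for P150: a 2 by 2 bilinear form, expanded to second
order in the coupling, with explicit third-order remainders.
-/

namespace Vale.Agent.P150.Crit

open Real

theorem mul3_le {a b c A B C : ℝ} (ha : |a| ≤ A) (hb : |b| ≤ B) (hc : |c| ≤ C) :
    |a * b * c| ≤ A * B * C := by
  rw [abs_mul, abs_mul]
  exact mul_le_mul (mul_le_mul ha hb (abs_nonneg _) ((abs_nonneg _).trans ha)) hc (abs_nonneg _)
    (mul_nonneg ((abs_nonneg _).trans ha) ((abs_nonneg _).trans hb))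

theorem abs_add4 (a b c d : ℝ) : |a + b + c + d| ≤ |a| + |b| + |c| + |d| := by
  linarith [abs_add_le (a + b + c) d, abs_add_le (a + b) c, abs_add_le a b]

/-- The kernel of the form agrees with its second-order expansion up to a third-order error. -/
theorem kernel_bound {K c sh τ ω T U s t k : ℝ} (hK : |K| ≤ k) (hk : k ≤ 1 / 100)
    (hs : s = 1 ∨ s = -1) (ht : t = 1 ∨ t = -1) (hτ : |τ| ≤ 1) (hω : |ω| ≤ 1) (hT : |T| ≤ 1)
    (hU : |U| ≤ 1) (hc : |c - 1| ≤ k ^ 2) (hsh : |sh - K| ≤ k ^ 3)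
    (heT : |T - τ - t * K * (1 - τ ^ 2)| ≤ 4 * k ^ 2) (heU : |U - ω - s * K * (1 - ω ^ 2)| ≤ 4 * k ^ 2) :
    |(c - s * t * sh) * (s * t + K * ((1 + s * T) * (1 + t * U)))
      - (s * t * (c + K * τ * ω + K ^ 2 * ((1 - τ ^ 2) + (1 - ω ^ 2) - 1))
        + s * (K * τ + K ^ 2 * ω * ((1 - τ ^ 2) - 1)) + t * (K * ω + K ^ 2 * τ * ((1 - ω ^ 2) - 1))
        - K ^ 2 * τ * ω)| ≤ 60 * k ^ 3 := by
  have hk0 : 0 ≤ k := (abs_nonneg K).trans hK
  have hsa : |s| = 1 := by rcases hs with rfl | rfl <;> norm_num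
  have hta : |t| = 1 := by rcases ht with rfl | rfl <;> norm_num
  set eT := T - τ - t * K * (1 - τ ^ 2) with heTd
  set eU := U - ω - s * K * (1 - ω ^ 2) with heUd
  have hone : ∀ σ y : ℝ, |σ| = 1 → |y| ≤ 1 → |1 + σ * y| ≤ 2 := fun σ y hσ hy => by
    refine (abs_add_le _ _).trans ?_
    rw [abs_one, abs_mul, hσ]
    linarith
  have hv : ∀ y : ℝ, |y| ≤ 1 → |1 - y ^ 2| ≤ 1 := fun y hy => by
    have h := (sq_le_one_iff_abs_le_one y).2 hy
    rw [abs_of_nonneg (by linarith)]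
    linarith [sq_nonneg y]
  have hk1 : k ≤ 1 := by linarith
  have hdT : |T - τ| ≤ 2 * k := by
    have e : T - τ = eT + t * K * (1 - τ ^ 2) := by rw [heTd]; ring
    rw [e]
    refine (abs_add_le _ _).trans ?_
    have h := mul3_le hta.le hK (hv τ hτ)
    nlinarith
  have hdU : |U - ω| ≤ 2 * k := by
    have e : U - ω = eU + s * K * (1 - ω ^ 2) := by rw [heUd]; ring
    rw [e]
    refine (abs_add_le _ _).trans ?_
    have h := mul3_le hsa.le hK (hv ω hω)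
    nlinarith
  have e : (c - s * t * sh) * (s * t + K * ((1 + s * T) * (1 + t * U)))
      - (s * t * (c + K * τ * ω + K ^ 2 * ((1 - τ ^ 2) + (1 - ω ^ 2) - 1))
        + s * (K * τ + K ^ 2 * ω * ((1 - τ ^ 2) - 1)) + t * (K * ω + K ^ 2 * τ * ((1 - ω ^ 2) - 1))
        - K ^ 2 * τ * ω)
      = -(sh - K) + (c - 1) * K * ((1 + s * T) * (1 + t * U))
        + -((s * t * (sh - K)) * K * ((1 + s * T) * (1 + t * U)))
        + (K * (s * eT) * (1 + t * U) + K * (t * eU) * (1 + s * (τ + t * K * (1 - τ ^ 2)))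
          + K * ((1 - τ ^ 2) * (1 - ω ^ 2)) * (K * K)
          + -((K * K * (s * t)) * (s * (T - τ)) * (1 + t * U)
            + (K * K * (s * t)) * (t * (U - ω)) * (1 + s * τ))) := by
    rw [heTd, heUd]
    rcases hs with rfl | rfl <;> rcases ht with rfl | rfl <;> ring
  rw [e]
  refine (abs_add4 _ _ _ _).trans ?_
  have hP : |(1 + s * T) * (1 + t * U)| ≤ 4 := by
    rw [abs_mul]
    have := mul_le_mul (hone s T hsa hT) (hone t U hta hU) (abs_nonneg _) zero_le_two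
    linarith
  have hKK : |K * K| ≤ k * k := by rw [abs_mul]; exact mul_le_mul hK hK (abs_nonneg _) hk0
  have hKKst : |K * K * (s * t)| ≤ k * k := by rw [abs_mul, abs_mul s t, hsa, hta]; simpa using hKK
  have b1 : |-(sh - K)| ≤ k ^ 3 := by rwa [abs_neg]
  have b2 := mul3_le hc hK hP
  have b3 : |-((s * t * (sh - K)) * K * ((1 + s * T) * (1 + t * U)))| ≤ k ^ 3 * k * 4 := by
    rw [abs_neg]
    refine mul3_le ?_ hK hP
    rw [abs_mul, abs_mul, hsa, hta]
    simpa using hsh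
  have hseT : |s * eT| ≤ 4 * k ^ 2 := by rw [abs_mul, hsa, one_mul]; exact heT
  have hteU : |t * eU| ≤ 4 * k ^ 2 := by rw [abs_mul, hta, one_mul]; exact heU
  have hT0 : |1 + s * (τ + t * K * (1 - τ ^ 2))| ≤ 3 := by
    refine (abs_add_le _ _).trans ?_
    rw [abs_one, abs_mul, hsa, one_mul]
    have h1 := abs_add_le τ (t * K * (1 - τ ^ 2))
    have h2 := mul3_le hta.le hK (hv τ hτ)
    linarith
  have b41 := mul3_le hK hseT (hone t U hta hU)
  have b42 := mul3_le hK hteU hT0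
  have b43 : |K * ((1 - τ ^ 2) * (1 - ω ^ 2)) * (K * K)| ≤ k * (1 * 1) * (k * k) := by
    refine mul3_le hK ?_ hKK
    rw [abs_mul]
    exact mul_le_mul (hv τ hτ) (hv ω hω) (abs_nonneg _) zero_le_one
  have hsdT : |s * (T - τ)| ≤ 2 * k := by rw [abs_mul, hsa, one_mul]; exact hdT
  have htdU : |t * (U - ω)| ≤ 2 * k := by rw [abs_mul, hta, one_mul]; exact hdU
  have b44 := mul3_le hKKst hsdT (hone t U hta hU)
  have b45 := mul3_le hKKst htdU (hone s τ hsa hτ)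
  have b4 := abs_add4 (K * (s * eT) * (1 + t * U)) (K * (t * eU) * (1 + s * (τ + t * K * (1 - τ ^ 2))))
    (K * ((1 - τ ^ 2) * (1 - ω ^ 2)) * (K * K))
    (-((K * K * (s * t)) * (s * (T - τ)) * (1 + t * U) + (K * K * (s * t)) * (t * (U - ω)) * (1 + s * τ)))
  rw [abs_neg] at b4
  have b46 := abs_add_le ((K * K * (s * t)) * (s * (T - τ)) * (1 + t * U))
    ((K * K * (s * t)) * (t * (U - ω)) * (1 + s * τ))
  nlinarith [pow_nonneg hk0 3]

/-- A mixed term against the main term and the weighted squares. -/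
theorem cross_le {p q u r E G H y ε : ℝ} (hp : 0 < p) (hq : 0 < q) (hu : 0 < u) (hu1 : u ≤ 1)
    (hy : y ^ 2 ≤ G ^ 2 + H ^ 2) (hur : u * r = p * q) (hε : 0 < ε) :
    u * |E| * |y| ≤ ε * (p * q * E ^ 2) + (G ^ 2 + H ^ 2) / (p * q) / (4 * ε) := by
  have hpq : 0 < p * q := mul_pos hp hq
  have h1 : 0 ≤ (2 * ε * (p * q * |E|) - u * |y|) ^ 2 / (4 * ε * (p * q)) := by positivity
  have h2 : (2 * ε * (p * q * |E|) - u * |y|) ^ 2 / (4 * ε * (p * q))
      = ε * (p * q * E ^ 2) - u * |E| * |y| + u ^ 2 * y ^ 2 / (4 * ε * (p * q)) := by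
    rw [← sq_abs E, ← sq_abs y]; field_simp; ring
  have h3 : u ^ 2 * y ^ 2 / (4 * ε * (p * q)) ≤ (G ^ 2 + H ^ 2) / (p * q) / (4 * ε) := by
    rw [div_div, mul_comm (p * q) (4 * ε)]
    refine div_le_div_of_nonneg_right ?_ (by positivity)
    calc u ^ 2 * y ^ 2 ≤ 1 * y ^ 2 := mul_le_mul_of_nonneg_right (pow_le_one₀ hu.le hu1) (sq_nonneg y)
      _ ≤ G ^ 2 + H ^ 2 := by linarith
  linarith

/-- A mixed term with a second-order coefficient. -/
theorem lin_le {p q u r E G H y m k : ℝ} (hp : 0 < p) (hq : 0 < q) (hu : 0 < u) (hu1 : u ≤ 1)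
    (hy : y ^ 2 ≤ G ^ 2 + H ^ 2) (hur : u * r = p * q) (hk : 0 ≤ k) (hm : |m| ≤ 100 * k ^ 2) :
    |m * (u * E * y)| ≤ p * q * E ^ 2 / 10 + 25000 * k ^ 4 * ((G ^ 2 + H ^ 2) / (p * q)) := by
  rcases eq_or_lt_of_le hk with rfl | hk'
  · have h0 : m = 0 := abs_eq_zero.1 (le_antisymm (by simpa using hm) (abs_nonneg _))
    subst h0
    simp
    positivity
  · have h := cross_le (E := E) hp hq hu hu1 hy hur (show 0 < 1 / (1000 * k ^ 2) by positivity)
    rw [abs_mul, abs_mul, abs_mul, abs_of_pos hu]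
    refine (mul_le_mul hm h (by positivity) (by positivity)).trans (le_of_eq ?_)
    field_simp
    ring

/-- Completing the square: the form is bounded below by the second-order cross term, up to
third-order errors measured with the weights `1 / (p q)`. -/
theorem form_lower {A c₁ c₂ γ p q κ d E G H R τ ω k : ℝ} (hp : 0 < p) (hp1 : p ≤ 1) (hq : 0 < q)
    (hq1 : q ≤ 1) (hk0 : 0 ≤ k) (hk : k ≤ 1 / 100) (hA : |A - 1| ≤ 20 * k)
    (hlin1 : |d * c₁ - 2 * κ * ω * A| ≤ 100 * k ^ 2) (hlin2 : |d * c₂ - 2 * κ * τ * A| ≤ 100 * k ^ 2)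
    (hγ : |γ + 8 * k ^ 2 * (τ * ω)| ≤ 400 * k ^ 3)
    (hγdef : γ = 4 * κ ^ 2 * τ * ω * A - 2 * κ * (τ * d * c₁ + ω * d * c₂) - 4 * k ^ 2 * τ * ω * d ^ 2)
    (hR : |R| ≤ 600 * k ^ 3 * ((|G| + p * |E|) * (|H| + q * |E|)))
    {δG δH : ℝ} (hδG : δG * d = p * E - 2 * τ * κ * G) (hδH : δH * d = q * E - 2 * ω * κ * H) :
    -(8 * k ^ 2 * |τ * ω * G * H|) - 3000 * k ^ 3 * ((G ^ 2 + H ^ 2) / (p * q))
      ≤ d ^ 2 * (A * δG * δH + c₁ * δG * H + c₂ * G * δH - 4 * k ^ 2 * τ * ω * G * H) + R := by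
  have hpq : 0 < p * q := mul_pos hp hq
  have e : d ^ 2 * (A * δG * δH + c₁ * δG * H + c₂ * G * δH - 4 * k ^ 2 * τ * ω * G * H)
      = A * (p * q * E ^ 2) + (d * c₁ - 2 * κ * ω * A) * (p * E * H)
        + (d * c₂ - 2 * κ * τ * A) * (q * E * G) + γ * (G * H) := by
    rw [hγdef]
    linear_combination (A * δH * d + d * c₁ * H) * hδG
      + (A * (p * E - 2 * τ * κ * G) + d * c₂ * G) * hδH
  rw [e]
  clear hγdef hδG hδH e
  set N := (G ^ 2 + H ^ 2) / (p * q) with hN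
  have hN0 : 0 ≤ N := by rw [hN]; positivity
  set P := p * q * E ^ 2 with hP
  have hP0 : 0 ≤ P := by rw [hP]; positivity
  have hpq1 : p * q ≤ 1 := mul_le_one₀ hp1 hq.le hq1
  have hGH : |G| * |H| ≤ N / 2 := by
    have h1 : G ^ 2 + H ^ 2 ≤ N := by rw [hN]; exact le_div_self (by positivity) hpq hpq1
    have h2 := two_mul_le_add_sq |G| |H|
    rw [sq_abs, sq_abs] at h2
    linarith
  have l1 : |(d * c₁ - 2 * κ * ω * A) * (p * E * H)| ≤ P / 10 + 25000 * k ^ 4 * N :=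
    lin_le (r := q) hp hq hp hp1 (by linarith [sq_nonneg G]) rfl hk0 hlin1
  have l2 : |(d * c₂ - 2 * κ * τ * A) * (q * E * G)| ≤ P / 10 + 25000 * k ^ 4 * N :=
    lin_le (r := p) hp hq hq hq1 (by linarith [sq_nonneg H]) (mul_comm q p) hk0 hlin2
  have l3 : -(8 * k ^ 2 * |τ * ω * G * H|) - 400 * k ^ 3 * (|G| * |H|) ≤ γ * (G * H) := by
    have h1 : |(γ + 8 * k ^ 2 * (τ * ω)) * (G * H)| ≤ 400 * k ^ 3 * (|G| * |H|) := by
      rw [abs_mul, abs_mul G H]
      exact mul_le_mul_of_nonneg_right hγ (by positivity)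
    have h2 := (abs_le.1 h1).1
    have h3 : τ * ω * G * H ≤ |τ * ω * G * H| := le_abs_self _
    linarith only [h2, mul_le_mul_of_nonneg_left h3 (show 0 ≤ 8 * k ^ 2 by positivity)]
  have l4 : |R| ≤ 600 * k ^ 3 * (3 * P + N) := by
    refine hR.trans (mul_le_mul_of_nonneg_left ?_ (by positivity))
    have a1 : p * |E| * |H| ≤ 1 * P + N / (4 * 1) :=
      cross_le (r := q) hp hq hp hp1 (by linarith [sq_nonneg G]) rfl one_pos
    have a2 : q * |E| * |G| ≤ 1 * P + N / (4 * 1) :=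
      cross_le (r := p) hp hq hq hq1 (by linarith [sq_nonneg H]) (mul_comm q p) one_pos
    have a3 : p * |E| * (q * |E|) = P := by rw [hP, ← sq_abs E]; ring
    linarith only [hGH, a1, a2, a3, hN0]
  have l5 : 0.8 * P ≤ A * P := mul_le_mul_of_nonneg_right (by linarith only [(abs_le.1 hA).1, hk]) hP0
  have hk3 : k ^ 3 ≤ 1 / 1000000 := (pow_le_pow_left₀ hk0 hk 3).trans (le_of_eq (by norm_num))
  have hk4 : 50000 * k ^ 4 ≤ 500 * k ^ 3 := by
    rw [pow_succ k 3]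
    linarith [mul_le_mul_of_nonneg_left hk (show 0 ≤ 50000 * k ^ 3 by positivity)]
  have hk3' : 1800 * k ^ 3 * P ≤ 0.1 * P := mul_le_mul_of_nonneg_right (by linarith only [hk3]) hP0
  have n1 := (abs_le.1 l1).1
  have n2 := (abs_le.1 l2).1
  have n4 := (abs_le.1 l4).1
  have n5 := mul_le_mul_of_nonneg_left hGH (show 0 ≤ 400 * k ^ 3 by positivity)
  have n6 := mul_le_mul_of_nonneg_right hk4 hN0
  have n7 : 0 ≤ k ^ 3 * N := by positivity
  linarith only [l3, l5, hk3', n1, n2, n4, n5, n6, n7, hP0]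

end Vale.Agent.P150.Crit
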