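import Mathlib
import Vale.Agent.P150.Crit.Defs

/-!
From the second-order criterion to the Poincaré inequality, for P150.
-/

open Real Finset

namespace Vale.Agent.P150.Crit

open Ent

variable {n : ℕ} (K : Fin n → Fin n → ℝ) (h : Fin n → ℝ)

theorem coupW_pos (x : Conf n) : 0 < coupW K h x := exp_pos _

theorem fld_update (hd : ∀ i, K i i = 0) (x : Conf n) (i : Fin n) (b : Bool) :
    fld K h (Function.update x i b) i = fld K h x i := by
  simp only [fld]
  refine congrArg (· + h i) (sum_congr rfl fun j _ => ?_)
  rcases eq_or_ne j i with rfl | hj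
  · simp [hd]
  · rw [Function.update_of_ne hj]

theorem grad_update (f : Conf n → ℝ) (x : Conf n) (i : Fin n) (b : Bool) :
    grad f (Function.update x i b) i = grad f x i := by
  simp [grad, Function.update_idem]

/-- The ratio of the weights at the two values of spin `i`. -/
theorem coupW_pair (hK : ∀ i j, K i j = K j i) (hd : ∀ i, K i i = 0) (x : Conf n) (i : Fin n) :
    coupW K h (Function.update x i true)
      = coupW K h (Function.update x i false) * exp (2 * fld K h x i) := by
  set a : Fin n → ℝ := fun j => spin (Function.update x i true j) with ha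
  set b : Fin n → ℝ := fun j => spin (Function.update x i false j) with hb
  have hdiff : ∀ j, a j - b j = if j = i then 2 else 0 := fun j => by
    rcases eq_or_ne j i with rfl | hj
    · simp [ha, hb, spin]; norm_num
    · simp [ha, hb, hj]
  have hrow : ∀ (c : Fin n → ℝ), (∀ j, j ≠ i → c j = spin (x j)) →
      ∑ j, K i j * c j = ∑ j, K i j * spin (x j) := fun c hc => sum_congr rfl fun j _ => by
    rcases eq_or_ne j i with rfl | hj
    · simp [hd]
    · rw [hc j hj]
  have hq : qform K a - qform K b = 4 * ∑ j, K i j * spin (x j) := by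
    have e : qform K a - qform K b
        = ∑ p, ∑ q, ((a p - b p) * K p q * a q + b p * K p q * (a q - b q)) := by
      simp only [qform, ← sum_sub_distrib]
      exact sum_congr rfl fun p _ => sum_congr rfl fun q _ => by ring
    have e1 : ∑ p, ∑ q, (a p - b p) * K p q * a q = 2 * ∑ q, K i q * a q := by
      simp only [mul_assoc, hdiff, ite_mul, zero_mul]
      simp [mul_sum]
    have e2 : ∑ p, ∑ q, b p * K p q * (a q - b q) = 2 * ∑ p, K i p * b p := by
      rw [sum_comm]
      simp only [← sum_mul]
      simp only [hdiff, mul_ite, mul_zero]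
      simp only [Finset.sum_ite_eq', mem_univ, if_true]
      rw [mul_comm]
      refine congrArg (2 * ·) (sum_congr rfl fun p _ => ?_)
      rw [hK p i, mul_comm]
    rw [e]
    simp only [sum_add_distrib]
    rw [e1, e2, hrow a (fun j hj => by simp [ha, hj]), hrow b (fun j hj => by simp [hb, hj])]
    ring
  have hl : Ent.lin h (Function.update x i true) - Ent.lin h (Function.update x i false) = 2 * h i := by
    have e : ∑ j, h j * (a j - b j) = 2 * h i := by simp [hdiff, mul_comm]
    rw [← e]
    simp only [Ent.lin, ← sum_sub_distrib, ha, hb, mul_sub]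
  rw [coupW, coupW, ← exp_add]
  refine congrArg exp ?_
  simp only [fld]
  linarith

theorem sum_update_pair (i : Fin n) (G : Conf n → ℝ) :
    2 * ∑ x, G x = ∑ x, (G (Function.update x i true) + G (Function.update x i false)) := by
  have hinv : Function.Involutive fun x : Conf n => flipAt x i := fun x => by simp [flipAt]
  rw [two_mul]
  conv_lhs =>
    arg 2
    rw [← Equiv.sum_comp hinv.toPerm G]
  rw [← sum_add_distrib]
  refine sum_congr rfl fun x _ => ?_
  simp only [Function.Involutive.coe_toPerm, flipAt]
  have e : Function.update x i (x i) = x := Function.update_eq_self i x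
  cases hx : x i <;> rw [hx] at e <;> simp only [e, Bool.not_false, Bool.not_true]
  ring

/-- A function that ignores spin `i` is orthogonal to every residual at `i`. -/
theorem sum_resid_mul (hK : ∀ i j, K i j = K j i) (hd : ∀ i, K i i = 0) (i : Fin n)
    (f q : Conf n → ℝ) (hq : ∀ x b, q (Function.update x i b) = q x) :
    ∑ x, coupW K h x * (resid K h f x i * q x) = 0 := by
  have hh := sum_update_pair i fun x => coupW K h x * (resid K h f x i * q x)
  have hz : ∀ x, coupW K h (Function.update x i true) *
        (resid K h f (Function.update x i true) i * q (Function.update x i true)) +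
      coupW K h (Function.update x i false) *
        (resid K h f (Function.update x i false) i * q (Function.update x i false)) = 0 := by
    intro x
    have hsum : exp (fld K h x i) + exp (-fld K h x i) ≠ 0 := (add_pos (exp_pos _) (exp_pos _)).ne'
    simp only [resid, grad_update, fld_update K h hd, hq, Function.update_self, spin, if_true,
      Bool.false_eq_true, if_false, coupW_pair K h hK hd x i]
    rw [Real.tanh_eq, show 2 * fld K h x i = fld K h x i + fld K h x i from two_mul _, exp_add]
    have hi : exp (fld K h x i) * exp (-fld K h x i) = 1 := by rw [← exp_add, add_neg_cancel, exp_zero]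
    field_simp
    linear_combination (2 * coupW K h (Function.update x i false) * grad f x i * q x *
      exp (fld K h x i)) * hi
  simp only [hz, sum_const_zero] at hh
  linarith

/-- `f` minus its residual at `i` ignores spin `i`. -/
theorem sub_resid_update (hd : ∀ i, K i i = 0) (f : Conf n → ℝ) (i : Fin n) (x : Conf n) (b : Bool) :
    f (Function.update x i b) - resid K h f (Function.update x i b) i = f x - resid K h f x i := by
  have key : ∀ y : Conf n, f y - resid K h f y i
      = (f (Function.update y i true) + f (Function.update y i false)) / 2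
        + grad f y i * tanh (fld K h y i) := by
    intro y
    have e : Function.update y i (y i) = y := Function.update_eq_self i y
    cases hy : y i <;> rw [hy] at e <;> simp [resid, grad, e, hy, spin] <;> ring
  rw [key, key, grad_update, fld_update K h hd]
  simp [Function.update_idem]

theorem resid_symm (hK : ∀ i j, K i j = K j i) (hd : ∀ i, K i i = 0) (f g : Conf n → ℝ)
    (i : Fin n) :
    ∑ x, coupW K h x * (resid K h f x i * g x)
      = ∑ x, coupW K h x * (resid K h f x i * resid K h g x i) := by
  have hz := sum_resid_mul K h hK hd i f (fun x => g x - resid K h g x i)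
    (sub_resid_update K h hd g i)
  simp only [mul_sub, sum_sub_distrib] at hz
  linarith

theorem sum_resid (hK : ∀ i j, K i j = K j i) (hd : ∀ i, K i i = 0) (f : Conf n → ℝ) (i : Fin n) :
    ∑ x, coupW K h x * resid K h f x i = 0 := by
  simpa using sum_resid_mul K h hK hd i f (fun _ => 1) fun _ _ => rfl

theorem eq_of_grad (u : Conf n → ℝ) (hu : ∀ x i, grad u x i = 0) (x y : Conf n) : u x = u y := by
  have step : ∀ (z : Conf n) (i : Fin n) (b : Bool), u (Function.update z i b) = u z := by
    intro z i b
    have h0 : u (Function.update z i true) = u (Function.update z i false) := by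
      have := hu z i; simp only [grad] at this; linarith
    have e : Function.update z i (z i) = z := Function.update_eq_self i z
    cases hz : z i <;> rw [hz] at e <;> cases b <;> simp only [h0, e] at h0 ⊢ <;> exact h0.symm
  suffices H : ∀ s : Finset (Fin n), ∀ z, (∀ j, j ∉ s → z j = y j) → u z = u y from
    H univ x (by simp)
  intro s
  induction s using Finset.induction with
  | empty => intro z hz; rw [show z = y from funext fun j => hz j (by simp)]
  | insert a s ha ih =>
    intro z hz
    rw [← step z a (y a)]
    refine ih _ fun j hj => ?_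
    rcases eq_or_ne j a with rfl | hne
    · simp
    · rw [Function.update_of_ne hne]
      exact hz j (by simp [hne, hj])

/-- The second-order bound implies the Poincaré inequality. -/
theorem poincare (hK : ∀ i j, K i j = K j i) (hd : ∀ i, K i i = 0) {κ : ℝ} (hκ : 0 < κ)
    (hsec : ∀ f : Conf n → ℝ, κ * ∑ x, coupW K h x * ∑ i, resid K h f x i ^ 2
      ≤ ∑ x, coupW K h x * (∑ i, resid K h f x i) ^ 2)
    (f : Conf n → ℝ) :
    avg (coupW K h) (fun x => f x ^ 2) - avg (coupW K h) f ^ 2
      ≤ 1 / κ * avg (coupW K h) (fun x => ∑ i, resid K h f x i ^ 2) := by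
  set W := coupW K h with hW
  have hWp : ∀ x, 0 < W x := coupW_pos K h
  have hM : 0 < mass W := mass_pos hWp
  have hadd : ∀ u v : Conf n → ℝ, ∀ x i,
      resid K h (u + v) x i = resid K h u x i + resid K h v x i := fun u v x i => by
    simp [resid, grad]; ring
  have hsmul : ∀ (r : ℝ) (u : Conf n → ℝ), ∀ x i, resid K h (r • u) x i = r * resid K h u x i :=
    fun r u x i => by simp [resid, grad]; ring
  let T : (Conf n → ℝ) →ₗ[ℝ] (Conf n → ℝ) :=
    { toFun := fun u x => ∑ i, resid K h u x i + avg W u
      map_add' := fun u v => by
        funext x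
        simp only [avg, hadd, sum_add_distrib, Pi.add_apply, mul_add, add_div]
        ring
      map_smul' := fun r u => by
        funext x
        simp only [avg, hsmul, RingHom.id_apply, Pi.smul_apply, smul_eq_mul, ← mul_sum, mul_left_comm _ r]
        ring }
  have hTmean : ∀ u, ∑ x, W x * T u x = avg W u * mass W := fun u => by
    show ∑ x, W x * (∑ i, resid K h u x i + avg W u) = _
    simp only [mul_add, sum_add_distrib, mul_sum]
    rw [sum_comm, sum_eq_zero fun i _ => sum_resid K h hK hd u i, zero_add, ← sum_mul, mul_comm]
    rfl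
  have hinj : Function.Injective T := by
    refine (injective_iff_map_eq_zero _).2 fun u hu => ?_
    have hmean : avg W u = 0 := by
      have := hTmean u
      rw [hu] at this
      simp only [Pi.zero_apply, mul_zero, sum_const_zero] at this
      rcases mul_eq_zero.1 this.symm with h0 | h0
      · exact h0
      · exact absurd h0 hM.ne'
    have hres : ∀ x, ∑ i, resid K h u x i = 0 := fun x => by
      have hx : ∑ i, resid K h u x i + avg W u = 0 := congrFun hu x
      rwa [hmean, add_zero] at hx
    have hsq : ∑ x, ∑ i, W x * resid K h u x i ^ 2 = 0 := by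
      rw [sum_comm]
      simp only [pow_two]
      rw [← sum_congr rfl fun i _ => resid_symm K h hK hd u u i, sum_comm]
      exact sum_eq_zero fun x _ => by rw [← mul_sum, ← sum_mul, hres, zero_mul, mul_zero]
    have hzero : ∀ x i, resid K h u x i = 0 := by
      intro x i
      have h1 := (sum_eq_zero_iff_of_nonneg fun y _ =>
        sum_nonneg fun j _ => mul_nonneg (hWp y).le (sq_nonneg _)).1 hsq x (mem_univ x)
      have h2 := (sum_eq_zero_iff_of_nonneg fun j _ =>
        mul_nonneg (hWp x).le (sq_nonneg (resid K h u x j))).1 h1 i (mem_univ i)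
      simpa [(hWp x).ne'] using h2
    have hgrad : ∀ x i, grad u x i = 0 := by
      intro x i
      have hr := hzero x i
      rw [resid, mul_eq_zero] at hr
      rcases hr with hr | hr
      · exact hr
      · exfalso
        have h1 := abs_lt.1 (Real.abs_tanh_lt_one (fld K h x i))
        cases hx : x i <;> simp [hx, spin] at hr <;> linarith [h1.1, h1.2]
    funext x
    have hconst : avg W u = u x := by
      rw [avg, div_eq_iff hM.ne', mass, mul_sum]
      exact sum_congr rfl fun y _ => by rw [eq_of_grad u hgrad y x, mul_comm]
    show u x = 0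
    rw [← hconst, hmean]
  obtain ⟨u, hu⟩ := (LinearMap.injective_iff_surjective.1 hinj) fun x => f x - avg W f
  set g : Conf n → ℝ := fun x => f x - avg W f with hg
  have hgm : ∑ x, W x * g x = 0 := by
    simp only [hg, mul_sub, sum_sub_distrib, ← sum_mul]
    rw [show (∑ x, W x * f x) = avg W f * mass W from (div_mul_cancel₀ _ hM.ne').symm]
    simp only [mass]; ring
  have hum : avg W u = 0 := by
    have := hTmean u
    rw [hu, hgm] at this
    rcases mul_eq_zero.1 this.symm with h0 | h0
    · exact h0
    · exact absurd h0 hM.ne'
  have hgu : ∀ x, g x = ∑ i, resid K h u x i := fun x => by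
    have hx : ∑ i, resid K h u x i + avg W u = g x := congrFun hu x
    rw [hum, add_zero] at hx
    exact hx.symm
  have hrg : ∀ x i, resid K h g x i = resid K h f x i := fun x i => by simp [resid, grad, hg]
  set A := ∑ x, W x * g x ^ 2 with hA
  set D := ∑ x, W x * ∑ i, resid K h f x i ^ 2 with hD
  set E := ∑ x, W x * ∑ i, resid K h u x i ^ 2 with hE
  have hAE : κ * E ≤ A := (hsec u).trans_eq (sum_congr rfl fun x _ => by rw [hgu])
  have hAeq : A = ∑ i, ∑ x, W x * (resid K h u x i * resid K h g x i) := by
    rw [← sum_congr rfl fun i _ => resid_symm K h hK hd u g i, sum_comm]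
    refine sum_congr rfl fun x _ => ?_
    rw [← mul_sum, ← sum_mul, ← hgu, pow_two]
  have hAle : A ≤ 1 / (2 * κ) * D + κ / 2 * E := by
    rw [hAeq, hD, hE, mul_sum, mul_sum, ← sum_add_distrib, sum_comm]
    refine sum_le_sum fun x _ => ?_
    simp only [mul_sum, ← sum_add_distrib]
    refine sum_le_sum fun i _ => ?_
    rw [hrg]
    have e : 1 / (2 * κ) * (W x * resid K h f x i ^ 2) + κ / 2 * (W x * resid K h u x i ^ 2)
        - W x * (resid K h u x i * resid K h f x i)
        = W x / (2 * κ) * (resid K h f x i - κ * resid K h u x i) ^ 2 := by field_simp; ring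
    have : 0 ≤ W x / (2 * κ) * (resid K h f x i - κ * resid K h u x i) ^ 2 := by
      have := hWp x; positivity
    linarith
  have hfin : A ≤ 1 / κ * D := by
    have e : 1 / (2 * κ) * D = (1 / κ * D) / 2 := by field_simp
    rw [e] at hAle
    nlinarith
  have hvar : avg W (fun x => f x ^ 2) - avg W f ^ 2 = A / mass W := by
    have hm : (∑ x, W x * f x) = avg W f * mass W := (div_mul_cancel₀ _ hM.ne').symm
    have e : A = ∑ x, W x * f x ^ 2 - 2 * avg W f * ∑ x, W x * f x + avg W f ^ 2 * mass W := by
      rw [hA, mass, mul_sum, mul_sum, ← sum_sub_distrib, ← sum_add_distrib]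
      exact sum_congr rfl fun x _ => by simp only [hg]; ring
    rw [e, hm]
    simp only [avg]
    field_simp
    ring
  rw [hvar, show avg W (fun x => ∑ i, resid K h f x i ^ 2) = D / mass W from rfl, mul_div_assoc']
  exact div_le_div_of_nonneg_right hfin hM.le

/-- Residuals of a linear function. -/
theorem resid_lin_le (hK : ∀ i j, K i j = K j i) (hd : ∀ i, K i i = 0) (u : Fin n → ℝ) :
    avg (coupW K h) (fun x => ∑ i, resid K h (Ent.lin u) x i ^ 2) ≤ ∑ i, u i ^ 2 := by
  set W := coupW K h with hW
  have hgr : ∀ x i, grad (Ent.lin u) x i = u i := fun x i => by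
    simp only [grad, Ent.lin, ← sum_sub_distrib]
    rw [sum_eq_single i (fun j _ hj => by simp [hj]) (by simp)]
    simp [spin]
  rw [avg, div_le_iff₀ (mass_pos (coupW_pos K h)), sum_mul]
  simp only [mul_sum]
  rw [sum_comm]
  refine sum_le_sum fun i _ => ?_
  set t : Conf n → ℝ := fun x => tanh (fld K h x i) with ht
  have hr : ∀ x, resid K h (Ent.lin u) x i = u i * (spin (x i) - t x) := fun x => by
    simp [resid, hgr, ht]
  have hz : ∑ x, W x * (u i * (spin (x i) - t x) * t x) = 0 := by
    simp only [← hr]
    exact sum_resid_mul K h hK hd i _ t fun x b => by simp only [ht, fld_update K h hd]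
  have hpt : ∀ x, W x * resid K h (Ent.lin u) x i ^ 2
      ≤ W x * u i ^ 2 - 2 * u i * (W x * (u i * (spin (x i) - t x) * t x)) := fun x => by
    rw [hr]
    have hs : spin (x i) * spin (x i) = 1 := by cases x i <;> simp [spin]
    have e : W x * u i ^ 2 - 2 * u i * (W x * (u i * (spin (x i) - t x) * t x))
        - W x * (u i * (spin (x i) - t x)) ^ 2 = W x * u i ^ 2 * (t x) ^ 2 := by
      linear_combination -(W x * u i ^ 2) * hs
    have : 0 ≤ W x * u i ^ 2 * (t x) ^ 2 := by have := coupW_pos K h x; positivity
    linarith
  refine (sum_le_sum fun x _ => hpt x).trans (le_of_eq ?_)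
  rw [sum_sub_distrib, ← mul_sum, hz, mul_zero, sub_zero, mass, mul_sum]
  exact sum_congr rfl fun x _ => mul_comm _ _

/-- The second-order bound implies the variance bound for linear functions. -/
theorem var_lin_le (hK : ∀ i j, K i j = K j i) (hd : ∀ i, K i i = 0) {κ : ℝ} (hκ : 0 < κ)
    (hsec : ∀ f : Conf n → ℝ, κ * ∑ x, coupW K h x * ∑ i, resid K h f x i ^ 2
      ≤ ∑ x, coupW K h x * (∑ i, resid K h f x i) ^ 2)
    (u : Fin n → ℝ) :
    avg (coupW K h) (fun x => Ent.lin u x ^ 2) - avg (coupW K h) (Ent.lin u) ^ 2
      ≤ 1 / κ * ∑ i, u i ^ 2 :=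
  (poincare K h hK hd hκ hsec (Ent.lin u)).trans
    (mul_le_mul_of_nonneg_left (resid_lin_le K h hK hd u) (by positivity))

end Vale.Agent.P150.Crit
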