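import Mathlib
import Vale.Agent.P150.Crit.Poincare
import Vale.Agent.P150.Edge.Spectral
import Vale.Agent.P150.Rows

/-!
The random coupling of the SK model satisfies the hypotheses of the second-order criterion with
high probability when `β < 1/2`; spectral gap and mixing time follow. Used for P150.
-/

open Real Finset MeasureTheory Filter
open scoped Topology

namespace Vale.Agent.P150.Crit

open Ent

variable {n : ℕ} {β : ℝ} {g : Pair n → ℝ}

/-- The coupling matrix of the SK model. -/
noncomputable def skK (n : ℕ) (β : ℝ) (g : Pair n → ℝ) (i j : Fin n) : ℝ :=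
  β / √n * entry g i j

theorem entry_symm (g : Pair n → ℝ) (i j : Fin n) : entry g i j = entry g j i := by
  rcases lt_trichotomy i j with h | h | h
  · simp [entry, h, h.not_gt]
  · subst h; rfl
  · simp [entry, h, h.not_gt]

theorem entry_self (g : Pair n → ℝ) (i : Fin n) : entry g i i = 0 := by simp [entry]

theorem skK_symm (i j : Fin n) : skK n β g i j = skK n β g j i := by
  rw [skK, skK, entry_symm]

theorem skK_self (i : Fin n) : skK n β g i i = 0 := by rw [skK, entry_self, mul_zero]

theorem qform_skK (v : Fin n → ℝ) : qform (skK n β g) v = β / √n * Edge.tri g v := by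
  have e : qform (skK n β g) v = β / √n * ∑ i, ∑ j, v i * entry g i j * v j := by
    simp only [qform, skK, mul_sum]
    exact sum_congr rfl fun i _ => sum_congr rfl fun j _ => by ring
  rw [e, Edge.sum_sum_eq n fun i j => v i * entry g i j * v j]
  congr 1
  simp only [entry_self, mul_zero, zero_mul, sum_const_zero, add_zero, Edge.tri]
  refine sum_congr rfl fun p _ => ?_
  obtain ⟨⟨a, b⟩, hab⟩ := p
  have hab' : a < b := hab
  simp [entry, hab', hab'.not_gt]
  ring

theorem energy_skK (x : Conf n) :
    energy n β g x = qform (skK n β g) (fun i => spin (x i)) / 2 := by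
  rw [qform_skK, energy, Edge.tri, mul_sum, mul_sum, sum_div]
  exact sum_congr rfl fun p _ => by ring

theorem coupW_zero (x : Conf n) : coupW (skK n β g) 0 x = exp (energy n β g x) := by
  simp [coupW, Ent.lin, energy_skK]

theorem avg_mu (f : Conf n → ℝ) :
    ∑ x, mu n β g x * f x = avg (coupW (skK n β g) 0) f := by
  simp only [avg, mass, coupW_zero, mu, sum_div]
  exact sum_congr rfl fun x _ => by rw [div_mul_eq_mul_div]

theorem generator_eq (f : Conf n → ℝ) (x : Conf n) :
    generator n β g f x = -∑ i, resid (skK n β g) 0 f x i := by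
  rw [generator, ← sum_neg_distrib]
  refine sum_congr rfl fun i _ => ?_
  have hsk := skK_symm (n := n) (β := β) (g := g)
  have hp := coupW_pair (skK n β g) 0 hsk skK_self x i
  simp only [coupW_zero] at hp
  have hmu : ∀ y, mu n β g y = exp (energy n β g y) / ∑ z, exp (energy n β g z) := fun y => rfl
  have hZ : (∑ z : Conf n, exp (energy n β g z)) ≠ 0 :=
    (sum_pos (fun z _ => exp_pos _) univ_nonempty).ne'
  have e : Function.update x i (x i) = x := Function.update_eq_self i x
  have hF : exp (fld (skK n β g) 0 x i) + exp (-fld (skK n β g) 0 x i) ≠ 0 :=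
    (add_pos (exp_pos _) (exp_pos _)).ne'
  have hm : exp (fld (skK n β g) 0 x i) * exp (-fld (skK n β g) 0 x i) = 1 := by
    rw [← exp_add, add_neg_cancel, exp_zero]
  rw [two_mul, exp_add] at hp
  rw [rate, resid, grad, Real.tanh_eq, hmu, hmu, flipAt, ← add_div, div_div_div_cancel_right₀ hZ]
  set F := exp (fld (skK n β g) 0 x i)
  set F' := exp (-fld (skK n β g) 0 x i)
  have hpf := exp_pos (energy n β g (Function.update x i false))
  have hF0 : 0 < F := exp_pos _
  have hne : exp (energy n β g (Function.update x i false))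
      + exp (energy n β g (Function.update x i false)) * (F * F) ≠ 0 := by positivity
  have hne' : exp (energy n β g (Function.update x i false)) * (F * F)
      + exp (energy n β g (Function.update x i false)) ≠ 0 := by positivity
  cases hx : x i <;> rw [hx] at e <;> simp only [Bool.not_false, Bool.not_true, spin, if_true,
    Bool.false_eq_true, if_false, e] at hp hne hne' ⊢
  · rw [hp]
    field_simp
    linear_combination (f (Function.update x i true) - f x) * hm * (2 * F)
  · rw [hp]
    field_simp
    linear_combination (f (Function.update x i false) - f x) * hm * (-2 * F)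

theorem dirichlet_eq_resid (f : Conf n → ℝ) :
    dirichlet n β g f = avg (coupW (skK n β g) 0) (fun x => ∑ i, resid (skK n β g) 0 f x i ^ 2) := by
  have e : dirichlet n β g f = ∑ x, mu n β g x * (f x * ∑ i, resid (skK n β g) 0 f x i) := by
    rw [dirichlet, ← sum_neg_distrib]
    exact sum_congr rfl fun x _ => by rw [generator_eq]; ring
  rw [e, avg_mu, avg, avg]
  congr 1
  simp only [mul_sum]
  rw [sum_comm]
  conv_rhs => rw [sum_comm]
  refine sum_congr rfl fun i _ => ?_
  rw [sum_congr rfl fun x _ => show coupW (skK n β g) 0 x * resid (skK n β g) 0 f x i ^ 2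
      = coupW (skK n β g) 0 x * (resid (skK n β g) 0 f x i * resid (skK n β g) 0 f x i) by ring,
    ← resid_symm _ _ skK_symm skK_self f f i]
  exact sum_congr rfl fun x _ => by ring

theorem gibbsVar_eq_avg (f : Conf n → ℝ) :
    gibbsVar n β g f = avg (coupW (skK n β g) 0) (fun x => f x ^ 2)
      - avg (coupW (skK n β g) 0) f ^ 2 := by
  rw [gibbsVar, avg_mu, avg_mu]

/-- The single-spin test function has variance `1` and Dirichlet form at most `1`. -/
theorem spin_test (i : Fin n) :
    gibbsVar n β g (fun x => spin (x i)) = 1 ∧ dirichlet n β g (fun x => spin (x i)) ≤ 1 := by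
  constructor
  · rw [gibbsVar, mean_zero g (fun x => spin (x i)) fun x => by simp [negConf, spin_not]]
    simp [pow_two, spin_sq, mu_sum]
  · have hu : (fun x : Conf n => spin (x i)) = Ent.lin (fun j => if j = i then 1 else 0) := by
      funext x; simp [Ent.lin]
    rw [dirichlet_eq_resid, hu]
    refine (resid_lin_le _ _ skK_symm skK_self _).trans_eq ?_
    simp

theorem gap_le_one (hn : 1 ≤ n) : gap n β g ≤ 1 := by
  obtain ⟨hv, hd⟩ := spin_test (β := β) (g := g) (⟨0, hn⟩ : Fin n)
  refine (csInf_le ⟨0, ?_⟩ (show dirichlet n β g (fun x => spin (x (⟨0, hn⟩ : Fin n))) ∈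
      {r | ∃ f : Conf n → ℝ, 0 < gibbsVar n β g f ∧ r = dirichlet n β g f / gibbsVar n β g f} from
    ⟨fun x => spin (x (⟨0, hn⟩ : Fin n)), by rw [hv]; exact one_pos, by rw [hv, div_one]⟩)).trans hd
  rintro r ⟨f, hf, rfl⟩
  exact div_nonneg (dirichlet_nonneg g f) hf.le

theorem le_gap (hn : 1 ≤ n) {κ : ℝ} (hκ : 0 < κ)
    (hsec : ∀ f : Conf n → ℝ, κ * ∑ x, coupW (skK n β g) 0 x * ∑ i, resid (skK n β g) 0 f x i ^ 2
      ≤ ∑ x, coupW (skK n β g) 0 x * (∑ i, resid (skK n β g) 0 f x i) ^ 2) :
    κ ≤ gap n β g := by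
  obtain ⟨hv, -⟩ := spin_test (β := β) (g := g) (⟨0, hn⟩ : Fin n)
  refine le_csInf ⟨_, _, hv ▸ one_pos, rfl⟩ ?_
  rintro r ⟨f, hf, rfl⟩
  rw [le_div_iff₀ hf]
  have h := poincare _ _ skK_symm skK_self hκ hsec f
  rw [← gibbsVar_eq_avg, ← dirichlet_eq_resid, div_mul_eq_mul_div, one_mul, le_div_iff₀ hκ] at h
  linarith

/-- All couplings are small with high probability. -/
theorem small_entries {a δ : ℝ} (ha : 0 < a) (hδ : 0 < δ) : ∀ᶠ n : ℕ in atTop,
    (disorder n).real {g | ¬ ∀ p : Pair n, |g p| ≤ a * √n} ≤ δ := by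
  have ht : Tendsto (fun n : ℕ => 4 * ((√(n : ℝ)) ^ 4 * exp (-(a * √(n : ℝ))))) atTop (𝓝 0) := by
    have h1 : Tendsto (fun n : ℕ => a * √(n : ℝ)) atTop atTop :=
      (tendsto_sqrt_atTop.comp tendsto_natCast_atTop_atTop).const_mul_atTop ha
    have h2 := ((Real.tendsto_pow_mul_exp_neg_atTop_nhds_zero 4).comp h1).const_mul (4 / a ^ 4)
    rw [mul_zero] at h2
    refine h2.congr fun n => ?_
    simp only [Function.comp_apply, mul_pow]
    field_simp
  filter_upwards [ht.eventually (eventually_le_nhds hδ)] with n hn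
  have hgp : disorder n = gp (Pair n) := rfl
  rw [hgp]
  set F : (Pair n → ℝ) → ℝ := fun g => ∑ p, (exp (g p) + exp (-(g p))) with hF
  have hlin : ∀ (p : Pair n) (σ : ℝ), Integrable (fun g => exp (σ * g p)) (gp (Pair n)) ∧
      ∫ g, exp (σ * g p) ∂gp (Pair n) = exp (σ ^ 2 / 2) := fun p σ => by
    classical
    have e : ∀ g : Pair n → ℝ, exp (σ * g p) = exp (P150.lin (fun q => if q = p then σ else 0) g) :=
      fun g => by simp [P150.lin, mul_comm]
    simp only [e]
    have h := mgf_lin (fun q : Pair n => if q = p then σ else 0)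
    refine ⟨h.1, h.2.trans ?_⟩
    simp
  have h1 := fun p => hlin p 1
  have h2 := fun p => hlin p (-1)
  simp only [one_mul, neg_mul] at h1 h2
  have hi : Integrable F (gp (Pair n)) :=
    integrable_finsetSum _ fun p _ => (h1 p).1.add (h2 p).1
  have hmean : ∫ g, F g ∂gp (Pair n) ≤ (n : ℝ) ^ 2 * 4 := by
    rw [hF, integral_finsetSum _ fun p _ => ?_]
    · refine (sum_le_sum fun p _ => (?_ : ∫ g : Pair n → ℝ, exp (g p) + exp (-(g p)) ∂gp (Pair n) ≤ 4)).trans ?_
      · rw [integral_add (h1 p).1 (h2 p).1, (h1 p).2, (h2 p).2]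
        have hh := exp_one_lt_d9
        have h5 : exp (1 / 2 : ℝ) ^ 2 = exp 1 := by rw [← exp_nat_mul]; norm_num
        norm_num
        linarith [sq_nonneg (exp (1 / 2 : ℝ) - 2)]
      · rw [sum_const, card_univ, nsmul_eq_mul]
        exact mul_le_mul_of_nonneg_right (Edge.card_pair_le n) (by norm_num)
    · exact (h1 p).1.add (h2 p).1
  have hm := mul_meas_ge_le_integral_of_nonneg (μ := gp (Pair n))
    (ae_of_all _ fun g => sum_nonneg fun p _ => add_nonneg (exp_pos (g p)).le (exp_pos _).le) hi
    (exp (a * √n))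
  refine le_trans (measureReal_mono (fun g hg => ?_) (measure_ne_top _ _))
    ((le_of_mul_le_mul_left ((hm.trans hmean).trans_eq ?_) (exp_pos (a * √n))).trans hn)
  · simp only [Set.mem_ofPred_eq, not_forall, not_le] at hg ⊢
    obtain ⟨p, hp⟩ := hg
    refine le_trans ?_ (single_le_sum (f := fun q => exp (g q) + exp (-(g q)))
      (fun q _ => add_nonneg (exp_pos _).le (exp_pos _).le) (mem_univ p))
    rcases le_total 0 (g p) with h | h
    · rw [abs_of_nonneg h] at hp
      linarith [exp_le_exp.2 hp.le, exp_pos (-(g p))]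
    · rw [abs_of_nonpos h] at hp
      linarith [exp_le_exp.2 hp.le, exp_pos (g p)]
  · have e4 : (√(n : ℝ)) ^ 4 = (n : ℝ) ^ 2 := by
      rw [show (4 : ℕ) = 2 * 2 from rfl, pow_mul, sq_sqrt (Nat.cast_nonneg n)]
    rw [e4]
    have hee : exp (a * √n) * exp (-(a * √n)) = 1 := by rw [← exp_add, add_neg_cancel, exp_zero]
    linear_combination -(4 * (n : ℝ) ^ 2) * hee

theorem abs_entry_le {a : ℝ} (ha : 0 ≤ a) (hg : ∀ p : Pair n, |g p| ≤ a) (i j : Fin n) :
    |entry g i j| ≤ a := by
  unfold entry
  split_ifs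
  · exact hg _
  · exact hg _
  · simpa using ha

/-- Gap and mixing time below one half, from the second-order criterion. -/
theorem fast_of_crit (hcrit : CritStmt) {β : ℝ} (hβ0 : 0 ≤ β) (hβ : β < 1 / 2) :
    ∃ A : ℝ, 0 < A ∧ ∀ ε : ℝ, 0 < ε → ∀ᶠ n : ℕ in atTop,
      ENNReal.ofReal (1 - ε) ≤ disorder n
        {g | 1 / A ≤ gap n β g ∧ gap n β g ≤ 1 ∧
          ∀ t, A * log n ≤ t → MixedBy n β g t} := by
  obtain ⟨C, k₀, hC, hk₀, hcrit⟩ := hcrit
  set η : ℝ := 1 - 2 * β with hη
  have hη0 : 0 < η := by linarith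
  set l : ℝ := (2 + η) * β with hl
  set R : ℝ := β ^ 2 * (1 + η) with hR
  set k : ℝ := min k₀ (η / (4 * (C + 1))) with hk
  set κ : ℝ := η / 4 with hκ
  have hk0 : 0 < k := lt_min hk₀ (by positivity)
  have hκ0 : 0 < κ := by positivity
  have hl0 : 0 ≤ l := by positivity
  have hR0 : 0 ≤ R := by positivity
  have hl1 : l ≤ 1 - η / 2 := by
    have : η * β ≤ η * (1 / 2) := mul_le_mul_of_nonneg_left hβ.le hη0.le
    rw [hl, hη] at *
    linarith
  have hR1 : 2 * R ≤ l := by
    have : β * (β * (1 + η)) ≤ β * ((1 / 2) * (1 + η)) :=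
      mul_le_mul_of_nonneg_left (mul_le_mul_of_nonneg_right hβ.le (by linarith)) hβ0
    rw [hl, hR]
    linarith
  have hCk : C * k * R ≤ η / 4 := by
    have h1 : C * k ≤ η / 4 := by
      refine (mul_le_mul_of_nonneg_left (min_le_right _ _) hC).trans ?_
      rw [mul_div_assoc', div_le_div_iff₀ (by positivity) (by norm_num)]
      linarith
    have h2 : R ≤ 1 := by linarith
    exact (mul_le_of_le_one_right (by positivity) h2).trans h1
  set a : ℝ := k / (β + 1) with ha
  have ha0 : 0 < a := by positivity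
  refine ⟨max (1 / κ) (exp (4 / κ) * 9), lt_max_of_lt_left (by positivity), fun ε hε => ?_⟩
  filter_upwards [Edge.edge hη0 (show 0 < ε / 3 by positivity),
    rows_bound hη0 (show 0 < ε / 3 by positivity), small_entries ha0 (show 0 < ε / 3 by positivity),
    eventually_ge_atTop 2] with n hedge hrows hsmall hn2
  have hprob : IsProbabilityMeasure (disorder n) := by unfold disorder; infer_instance
  set Gd : Set (Pair n → ℝ) := {g | 1 / max (1 / κ) (exp (4 / κ) * 9) ≤ gap n β g ∧ gap n β g ≤ 1 ∧
    ∀ t, max (1 / κ) (exp (4 / κ) * 9) * log n ≤ t → MixedBy n β g t} with hGd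
  set G₁ : Set (Pair n → ℝ) := {g | ∀ v, |Edge.tri g v| ≤ (2 + η) * √n * ∑ i, v i ^ 2} with hG1
  set G₂ : Set (Pair n → ℝ) := {g | ∀ i, ∑ j, entry g i j ^ 2 ≤ (1 + η) * n} with hG2
  set G₃ : Set (Pair n → ℝ) := {g | ∀ p : Pair n, |g p| ≤ a * √n} with hG3
  have hn0 : (0 : ℝ) < n := by exact_mod_cast (show 0 < n by omega)
  have hsn : 0 < √(n : ℝ) := sqrt_pos.2 hn0
  have hsub : G₁ ∩ G₂ ∩ G₃ ⊆ Gd := by
    rintro g ⟨⟨g1, g2⟩, g3⟩
    have hq : ∀ v, |qform (skK n β g) v| ≤ l * ∑ i, v i ^ 2 := fun v => by
      rw [qform_skK, abs_mul, abs_of_nonneg (by positivity)]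
      refine (mul_le_mul_of_nonneg_left (g1 v) (by positivity)).trans_eq ?_
      rw [hl]; field_simp
    have hrow : ∀ i, ∑ j, skK n β g i j ^ 2 ≤ R := fun i => by
      simp only [skK, mul_pow, ← mul_sum, div_pow, sq_sqrt hn0.le]
      refine (mul_le_mul_of_nonneg_left (g2 i) (by positivity)).trans_eq ?_
      rw [hR]; field_simp
    have hent : ∀ i j, |skK n β g i j| ≤ k := fun i j => by
      rw [skK, abs_mul, abs_of_nonneg (by positivity)]
      refine (mul_le_mul_of_nonneg_left (abs_entry_le (by positivity) g3 i j) (by positivity)).trans ?_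
      have e : β / √n * (a * √n) = β * k / (β + 1) := by rw [ha]; field_simp
      rw [e, div_le_iff₀ (by positivity)]
      linarith
    have hsec : ∀ s : ℝ, 0 ≤ s → s ≤ 1 → ∀ (h : Fin n → ℝ) (f : Conf n → ℝ),
        κ * ∑ x, coupW (fun i j => s * skK n β g i j) h x
          * ∑ i, resid (fun i j => s * skK n β g i j) h f x i ^ 2
        ≤ ∑ x, coupW (fun i j => s * skK n β g i j) h x
          * (∑ i, resid (fun i j => s * skK n β g i j) h f x i) ^ 2 := by
      intro s hs0 hs1 h f
      refine le_trans (mul_le_mul_of_nonneg_right ?_ ?_)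
        (hcrit n _ h l R k (fun i j => by rw [skK_symm]) (fun i => by rw [skK_self, mul_zero])
          (fun v => ?_) (fun i => ?_) (fun i j => ?_) (min_le_left _ _) hk0.le hR0 hl0 f)
      · rw [max_eq_left hR1, hκ]; linarith
      · exact sum_nonneg fun x _ => mul_nonneg (exp_pos _).le (sum_nonneg fun i _ => sq_nonneg _)
      · have e : qform (fun i j => s * skK n β g i j) v = s * qform (skK n β g) v := by
          simp only [qform, mul_sum]
          exact sum_congr rfl fun i _ => sum_congr rfl fun j _ => by ring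
        rw [e]
        calc s * qform (skK n β g) v ≤ s * (l * ∑ i, v i ^ 2) :=
              mul_le_mul_of_nonneg_left ((le_abs_self _).trans (hq v)) hs0
          _ ≤ l * ∑ i, v i ^ 2 := mul_le_of_le_one_left (by positivity) hs1
      · simp only [mul_pow, ← mul_sum]
        exact (mul_le_of_le_one_left (sum_nonneg fun j _ => sq_nonneg _)
          (pow_le_one₀ hs0 hs1)).trans (hrow i)
      · rw [abs_mul, abs_of_nonneg hs0]
        exact (mul_le_of_le_one_left (abs_nonneg _) hs1).trans (hent i j)
    have hone := hsec 1 zero_le_one le_rfl 0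
    simp only [one_mul] at hone
    refine ⟨?_, gap_le_one (by omega), fun t ht => ?_⟩
    · refine le_trans ?_ (le_gap (by omega) hκ0 hone)
      rw [div_le_iff₀ (lt_max_of_lt_left (by positivity))]
      refine le_trans (le_of_eq ?_) (mul_le_mul_of_nonneg_left (le_max_left _ _) hκ0.le)
      field_simp
    · refine mixedBy_of_coupling (skK n β g) skK_symm (l := l) (c := l) (C := 1 / κ) (by positivity)
        (by positivity) energy_skK (fun v => neg_le_of_abs_le (hq v))
        (fun v => (le_abs_self _).trans (hq v))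
        (fun s hs0 hs1 h u => var_lin_le _ h (fun i j => by rw [skK_symm])
          (fun i => by rw [skK_self, mul_zero]) hκ0 (hsec s hs0 hs1 h) u) ?_
      refine le_trans ?_ ht
      have hll : l + l ≤ 2 := by linarith
      have hlog2 : log 2 ≤ log n := log_le_log two_pos (by exact_mod_cast hn2)
      have hlog : log (64 * (n * (1 + (l + l)) + 1)) ≤ 9 * log n := by
        calc log (64 * (n * (1 + (l + l)) + 1)) ≤ log ((2 : ℝ) ^ 8 * n) := by
              refine log_le_log (by positivity) ?_
              have : (1 : ℝ) ≤ n := by linarith [(show (2 : ℝ) ≤ n by exact_mod_cast hn2)]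
              nlinarith
          _ = 8 * log 2 + log n := by rw [log_mul (by norm_num) hn0.ne', log_pow]; norm_num
          _ ≤ 9 * log n := by linarith
      calc exp (2 * (1 / κ) * (l + l)) * log (64 * (n * (1 + (l + l)) + 1))
          ≤ exp (4 / κ) * (9 * log n) := by
            refine mul_le_mul (exp_le_exp.2 ?_) hlog ?_ (exp_pos _).le
            · rw [← sub_nonneg]
              have e : 4 / κ - 2 * (1 / κ) * (l + l) = 2 * (2 - (l + l)) / κ := by field_simp; ring
              rw [e]
              exact div_nonneg (by linarith) hκ0.le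
            · refine log_nonneg ?_
              have h1 : (0 : ℝ) ≤ n * (1 + (l + l)) := mul_nonneg hn0.le (by linarith)
              linarith
        _ ≤ max (1 / κ) (exp (4 / κ) * 9) * log n := by
            rw [← mul_assoc]
            exact mul_le_mul_of_nonneg_right (le_max_right _ _)
              (le_trans (log_nonneg (by norm_num)) hlog2)
  have hr2 : (disorder n).real G₂ᶜ ≤ ε / 3 := by
    have hm : MeasurableSet G₂ := by
      rw [hG2, Set.ofPred_forall]
      refine MeasurableSet.iInter fun i => measurableSet_le ?_ measurable_const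
      simp only [sum_entry_sq]
      fun_prop
    rw [probReal_compl_eq_one_sub hm]
    have h := hrows
    rw [← ofReal_measureReal (μ := disorder n), ENNReal.ofReal_le_ofReal_iff measureReal_nonneg] at h
    linarith
  have htot : 1 - ε ≤ (disorder n).real Gd := by
    have hu : (disorder n).real Set.univ ≤ (disorder n).real (G₁ ∩ G₂ ∩ G₃)
        + (((disorder n).real G₁ᶜ + (disorder n).real G₂ᶜ) + (disorder n).real G₃ᶜ) := by
      refine le_trans (measureReal_mono (s₂ := (G₁ ∩ G₂ ∩ G₃) ∪ ((G₁ᶜ ∪ G₂ᶜ) ∪ G₃ᶜ))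
        (fun g _ => ?_) (measure_ne_top _ _)) ((measureReal_union_le _ _).trans
          (add_le_add le_rfl ((measureReal_union_le _ _).trans
            (add_le_add (measureReal_union_le _ _) le_rfl))))
      by_cases h1 : g ∈ G₁ <;> by_cases h2 : g ∈ G₂ <;> by_cases h3 : g ∈ G₃ <;> simp [h1, h2, h3]
    rw [probReal_univ] at hu
    have he1 : (disorder n).real G₁ᶜ ≤ ε / 3 := hedge
    have he3 : (disorder n).real G₃ᶜ ≤ ε / 3 := hsmall
    have := measureReal_mono (μ := disorder n) hsub (measure_ne_top _ _)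
    linarith
  rw [← ofReal_measureReal (μ := disorder n) (s := Gd)]
  exact ENNReal.ofReal_le_ofReal htot

end Vale.Agent.P150.Crit
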