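import Mathlib
import Vale.Agent.P150.Defs
import Vale.Agent.P150.Crit.Form

/-!
The pair inequality for P150. For two spins with coupling `K`, fields `a`, `b` and a common mixed
difference, the product of the two resampling residuals plus `K` times the product of the damped
gradients is bounded below by explicit second- and third-order squares.
-/

namespace Vale.Agent.P150.Crit

open Real

/-- The weight of one of the four states. -/
noncomputable def wpair (a b K : ℝ) (s t : Bool) : ℝ :=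
  exp (a * spin s + b * spin t + K * (spin s * spin t))

/-- `tanh` of the field seen by the first spin. -/
noncomputable def tanhAt (a K : ℝ) (t : Bool) : ℝ := tanh (a + K * spin t)

/-- The left side of the pair inequality at one state. -/
noncomputable def pairTerm (a b K C : ℝ) (g h : Bool → ℝ) (s t : Bool) : ℝ :=
  wpair a b K s t *
    (g t * (spin s - tanhAt a K t) * (h s * (spin t - tanhAt b K s))
      + K * (g t * (1 - tanhAt a K t ^ 2)) * (h s * (1 - tanhAt b K s ^ 2))
      + K ^ 2 * ((g t * (1 - tanhAt a K t ^ 2) * tanhAt a K t) ^ 2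
          + (h s * (1 - tanhAt b K s ^ 2) * tanhAt b K s) ^ 2)
      + C * |K| ^ 3 * (g t ^ 2 * (1 - tanhAt a K t ^ 2) + h s ^ 2 * (1 - tanhAt b K s ^ 2)))

theorem spin_cases (b : Bool) : spin b = 1 ∨ spin b = -1 := by cases b <;> simp [spin]

theorem exp_spin (y : ℝ) (b : Bool) : exp (y * spin b) = cosh y * (1 + spin b * tanh y) := by
  rw [tanh_eq_sinh_div_cosh, mul_add, mul_one, mul_left_comm, mul_div_cancel₀ _ (cosh_pos y).ne']
  cases b
  · simp only [spin, Bool.false_eq_true, if_false, mul_neg, mul_one, neg_mul, one_mul]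
    rw [← sub_eq_add_neg, cosh_sub_sinh]
  · simp only [spin, if_true, mul_one, one_mul, cosh_add_sinh]

theorem one_sub_tanh_sq (y : ℝ) : 1 - tanh y ^ 2 = 1 / cosh y ^ 2 := by
  have h := cosh_sq_sub_sinh_sq y
  rw [tanh_eq_sinh_div_cosh, div_pow, one_sub_div (pow_ne_zero 2 (cosh_pos y).ne'), h]

theorem abs_tanh_le (y : ℝ) : |tanh y| ≤ 1 := by
  rw [tanh_eq_sinh_div_cosh, abs_div, abs_of_pos (cosh_pos y), div_le_one (cosh_pos y), abs_le]
  constructor
  · linarith [exp_pos y, cosh_add_sinh y]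
  · linarith [exp_pos (-y), cosh_sub_sinh y]

/-- Small-coupling bounds for the hyperbolic functions. -/
theorem small_bounds {K : ℝ} (hK : |K| ≤ 1 / 100) :
    |cosh K - 1| ≤ |K| ^ 2 ∧ |sinh K - K| ≤ |K| ^ 3 ∧ |tanh K - K| ≤ 2 * |K| ^ 3 ∧
      |tanh K| ≤ 2 * |K| := by
  have hb : ∀ y : ℝ, |y| ≤ 1 → |exp y - (1 + y + y ^ 2 / 2)| ≤ |y| ^ 3 := fun y hy => by
    have h := exp_bound hy (n := 3) (by norm_num)
    simp only [Finset.sum_range_succ, Finset.sum_range_zero] at h
    norm_num [Nat.factorial] at h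
    refine h.trans' (le_of_eq ?_) |>.trans ?_
    · ring_nf
    · linarith [pow_nonneg (abs_nonneg y) 3]
  have hK1 : |K| ≤ 1 := by linarith
  have h1 := abs_le.1 (hb K hK1)
  have h2 := abs_le.1 (hb (-K) (by rwa [abs_neg]))
  rw [abs_neg] at h2
  have hk0 := abs_nonneg K
  have hcub : |K| ^ 3 ≤ |K| ^ 2 * (1 / 100) := by rw [pow_succ]; exact mul_le_mul_of_nonneg_left hK (sq_nonneg _)
  have hsq : |K| ^ 2 = K ^ 2 := sq_abs K
  have hc : |cosh K - 1| ≤ |K| ^ 2 := by
    rw [cosh_eq, abs_le]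
    constructor <;> linarith [sq_nonneg K]
  have hs : |sinh K - K| ≤ |K| ^ 3 := by
    rw [sinh_eq, abs_le]
    constructor <;> linarith
  have hcp : 1 ≤ cosh K := one_le_cosh K
  have e : tanh K - K = ((sinh K - K) - K * (cosh K - 1)) / cosh K := by
    rw [tanh_eq_sinh_div_cosh]; field_simp; ring
  have ht : |tanh K - K| ≤ 2 * |K| ^ 3 := by
    rw [e, abs_div, abs_of_pos (cosh_pos K)]
    refine (div_le_self (abs_nonneg _) hcp).trans ((abs_sub _ _).trans ?_)
    rw [abs_mul]
    have := mul_le_mul_of_nonneg_left hc hk0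
    linarith
  refine ⟨hc, hs, ht, ?_⟩
  have := abs_sub_abs_le_abs_sub (tanh K) K
  nlinarith [pow_le_pow_left₀ hk0 hK 2]

/-- The field shifted by the coupling. -/
theorem shift_bounds {a K : ℝ} (hK : |K| ≤ 1 / 100) (t : Bool) :
    cosh (a + K * spin t) = cosh a * cosh K * (1 + spin t * (tanh K * tanh a)) ∧
    |tanhAt a K t - tanh a - spin t * K * (1 - tanh a ^ 2)| ≤ 4 * |K| ^ 2 := by
  obtain ⟨-, -, hκ, hκ'⟩ := small_bounds hK
  set τ := tanh a with hτd
  set κ := tanh K with hκd
  have hτ : |τ| ≤ 1 := abs_tanh_le a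
  have hca := (cosh_pos a).ne'
  have hcK := (cosh_pos K).ne'
  have esh : sinh a = τ * cosh a := by rw [hτd, tanh_eq_sinh_div_cosh, div_mul_cancel₀ _ hca]
  have eshK : sinh K = κ * cosh K := by rw [hκd, tanh_eq_sinh_div_cosh, div_mul_cancel₀ _ hcK]
  have ecosh : cosh (a + K * spin t) = cosh a * cosh K * (1 + spin t * (κ * τ)) := by
    cases t <;> simp [spin, cosh_add, esh, eshK] <;> ring
  refine ⟨ecosh, ?_⟩
  have hta : |spin t| = 1 := by rcases spin_cases t with h | h <;> rw [h] <;> norm_num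
  have hκτ : |κ * τ| ≤ 2 * |K| := by
    rw [abs_mul]; exact (mul_le_of_le_one_right (abs_nonneg _) hτ).trans hκ'
  have hd : 98 / 100 ≤ 1 + spin t * (κ * τ) := by
    have h := (abs_le.1 (show |spin t * (κ * τ)| ≤ 2 / 100 by rw [abs_mul, hta, one_mul]; linarith)).1
    linarith
  have etanh : tanhAt a K t = (τ + spin t * κ) / (1 + spin t * (κ * τ)) := by
    rw [tanhAt, tanh_eq_sinh_div_cosh, ecosh]
    have : sinh (a + K * spin t) = cosh a * cosh K * (τ + spin t * κ) := by
      cases t <;> simp [spin, sinh_add, esh, eshK] <;> ring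
    rw [this, mul_div_mul_left _ _ (mul_ne_zero hca hcK)]
  have e : tanhAt a K t - τ - spin t * K * (1 - τ ^ 2)
      = (1 - τ ^ 2) * ((κ - K) * spin t - K * (κ * τ)) / (1 + spin t * (κ * τ)) := by
    have hne : 1 + spin t * (κ * τ) ≠ 0 := by linarith
    rw [etanh]
    rw [eq_div_iff hne, sub_mul, sub_mul, div_mul_cancel₀ _ hne]
    rcases spin_cases t with h | h <;> rw [h] <;> ring
  rw [e, abs_div, abs_of_pos (show 0 < 1 + spin t * (κ * τ) by linarith), div_le_iff₀ (by linarith),
    abs_mul]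
  have h1 : |1 - τ ^ 2| ≤ 1 := by
    have := (sq_le_one_iff_abs_le_one τ).2 hτ
    rw [abs_of_nonneg (by linarith)]
    linarith [sq_nonneg τ]
  have h2 : |(κ - K) * spin t - K * (κ * τ)| ≤ 2 * |K| ^ 3 + 2 * |K| ^ 2 := by
    refine (abs_sub _ _).trans ?_
    rw [abs_mul, abs_mul K, hta, mul_one]
    linarith [mul_le_mul_of_nonneg_left hκτ (abs_nonneg K)]
  have h3 := mul_le_mul h1 h2 (abs_nonneg _) zero_le_one
  have h4 : |K| ^ 3 ≤ |K| ^ 2 * (1 / 100) := by
    rw [pow_succ]; exact mul_le_mul_of_nonneg_left hK (sq_nonneg _)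
  nlinarith [sq_nonneg |K|]

theorem wpair_eq (a b K : ℝ) (s t : Bool) :
    wpair a b K s t = (cosh K - spin s * spin t * sinh K)
      * (cosh (a + K * spin t) * (1 + spin s * tanhAt a K t))
      * (cosh (b + K * spin s) * (1 + spin t * tanhAt b K s)) := by
  have e : cosh K - spin s * spin t * sinh K = exp (-(K * (spin s * spin t))) := by
    cases s <;> cases t <;> simp [spin, cosh_add_sinh, cosh_sub_sinh]
  rw [e, tanhAt, tanhAt, ← exp_spin, ← exp_spin, wpair, ← exp_add, ← exp_add]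
  ring_nf

/-- The weighted squares of one of the two sides, against the local mean `Gm`. -/
theorem side_bounds {a b K : ℝ} (hK : |K| ≤ 1 / 100) (G : Bool → ℝ) :
    let Gm := (G true * (1 + tanh b) + G false * (1 - tanh b)) / 2
    let N := ∑ s, ∑ t, wpair a b K s t * G t ^ 2
    3 * Gm ^ 2 * (cosh a * cosh b) ≤ N ∧
    4 * (cosh b / cosh a) * tanh a ^ 2 * Gm ^ 2
      ≤ ∑ s, ∑ t, wpair a b K s t * (G t ^ 2 * (1 - tanhAt a K t ^ 2) * tanhAt a K t ^ 2) + 20 * |K| * N := by
  intro Gm N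
  obtain ⟨hc, -, -, hκ'⟩ := small_bounds hK
  have hw : ∀ t, ∑ s, wpair a b K s t = 2 * (cosh b * (1 + spin t * tanh b)) * cosh (a + K * spin t) := by
    intro t
    rw [← exp_spin]
    simp only [Fintype.sum_bool, wpair, spin, if_true, Bool.false_eq_true, if_false]
    rw [cosh_eq, mul_comm 2, mul_assoc, mul_div_cancel₀ _ (two_ne_zero' ℝ), mul_add, ← exp_add, ← exp_add]
    ring_nf
  have eN : N = ∑ t, 2 * (cosh b * (1 + spin t * tanh b)) * cosh (a + K * spin t) * G t ^ 2 := by
    simp only [N]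
    rw [Finset.sum_comm]
    exact Finset.sum_congr rfl fun t _ => by rw [← Finset.sum_mul, hw]
  have eX : ∑ s, ∑ t, wpair a b K s t * (G t ^ 2 * (1 - tanhAt a K t ^ 2) * tanhAt a K t ^ 2)
      = ∑ t, 2 * (cosh b * (1 + spin t * tanh b)) * cosh (a + K * spin t)
          * (G t ^ 2 * (1 - tanhAt a K t ^ 2) * tanhAt a K t ^ 2) := by
    rw [Finset.sum_comm]
    exact Finset.sum_congr rfl fun t _ => by rw [← Finset.sum_mul, hw]
  have hca : 1 ≤ cosh a := one_le_cosh a
  have hcb : 0 < cosh b := cosh_pos b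
  have hcK : 1 ≤ cosh K := one_le_cosh K
  set ω := tanh b
  set τ := tanh a with hτd
  have hω : |ω| ≤ 1 := abs_tanh_le b
  have hτ : |τ| ≤ 1 := abs_tanh_le a
  set S := ∑ t, (1 + spin t * ω) * G t ^ 2 with hS
  have hwt : ∀ t, 0 ≤ 1 + spin t * ω := fun t => by
    rcases spin_cases t with h | h <;> rw [h] <;> linarith [(abs_le.1 hω).1, (abs_le.1 hω).2]
  have hGm : 2 * Gm ^ 2 ≤ S := by
    have e : S - 2 * Gm ^ 2 = (1 - ω ^ 2) / 2 * (G true - G false) ^ 2 := by
      simp only [hS, Gm, Fintype.sum_bool, spin, if_true, Bool.false_eq_true, if_false]; ring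
    have : 0 ≤ (1 - ω ^ 2) / 2 * (G true - G false) ^ 2 :=
      mul_nonneg (by linarith [(sq_le_one_iff_abs_le_one ω).2 hω]) (sq_nonneg _)
    linarith
  have hd : ∀ t, |spin t * (tanh K * τ)| ≤ 2 * |K| := fun t => by
    have hta : |spin t| = 1 := by rcases spin_cases t with h | h <;> rw [h] <;> norm_num
    rw [abs_mul, hta, one_mul, abs_mul]
    exact (mul_le_of_le_one_right (abs_nonneg _) hτ).trans hκ'
  have hN : 2 * (98 / 100) * (cosh a * cosh b) * S ≤ N := by
    rw [eN, hS, Finset.mul_sum]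
    refine Finset.sum_le_sum fun t _ => ?_
    rw [(shift_bounds (a := a) hK t).1]
    have hr : 98 / 100 ≤ cosh K * (1 + spin t * (tanh K * τ)) := by
      have h1 : 98 / 100 ≤ 1 + spin t * (tanh K * τ) := by linarith [(abs_le.1 (hd t)).1]
      nlinarith
    have := mul_le_mul_of_nonneg_left hr
      (mul_nonneg (mul_nonneg (show 0 ≤ 2 * (cosh a * cosh b) by positivity) (hwt t)) (sq_nonneg (G t)))
    linarith
  refine ⟨?_, ?_⟩
  · have := mul_le_mul_of_nonneg_left hGm (show 0 ≤ cosh a * cosh b by positivity)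
    linarith [mul_nonneg (show 0 ≤ cosh a * cosh b by positivity) (sq_nonneg Gm)]
  · have hX : 2 * (cosh b / cosh a) * (τ ^ 2 - 8 * |K|) * S
        ≤ ∑ t, 2 * (cosh b * (1 + spin t * ω)) * cosh (a + K * spin t)
          * (G t ^ 2 * (1 - tanhAt a K t ^ 2) * tanhAt a K t ^ 2) := by
      rw [hS, Finset.mul_sum]
      refine Finset.sum_le_sum fun t _ => ?_
      obtain ⟨ec, hT⟩ := shift_bounds (a := a) hK t
      rw [show 1 - tanhAt a K t ^ 2 = 1 / cosh (a + K * spin t) ^ 2 from one_sub_tanh_sq _, ec]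
      set r := cosh K * (1 + spin t * (tanh K * τ)) with hr
      set T := tanhAt a K t with hTd
      have hr0 : 0 < r := mul_pos (cosh_pos K) (by linarith [(abs_le.1 (hd t)).1])
      have hr1 : r ≤ 1 + 3 * |K| := by
        have h1 : cosh K ≤ 1 + |K| ^ 2 := by linarith [(abs_le.1 hc).2]
        have h2 : 1 + spin t * (tanh K * τ) ≤ 1 + 2 * |K| := by linarith [(abs_le.1 (hd t)).2]
        refine (mul_le_mul h1 h2 (by linarith [(abs_le.1 (hd t)).1]) (by positivity)).trans ?_
        nlinarith [mul_le_mul_of_nonneg_left hK (abs_nonneg K), mul_nonneg (sq_nonneg |K|) (abs_nonneg K)]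
      have hT1 : |T| ≤ 1 := abs_tanh_le _
      have hdT : |T - τ| ≤ 2 * |K| := by
        have hta : |spin t| = 1 := by rcases spin_cases t with h | h <;> rw [h] <;> norm_num
        have h1 := abs_add_le (T - τ - spin t * K * (1 - τ ^ 2)) (spin t * K * (1 - τ ^ 2))
        have h2 := mul3_le hta.le (le_refl |K|) (show |1 - τ ^ 2| ≤ 1 by
          have := (sq_le_one_iff_abs_le_one τ).2 hτ
          rw [abs_of_nonneg (by linarith)]; linarith [sq_nonneg τ])
        rw [show T - τ - spin t * K * (1 - τ ^ 2) + spin t * K * (1 - τ ^ 2) = T - τ by ring] at h1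
        nlinarith [mul_le_mul_of_nonneg_left hK (abs_nonneg K)]
      have hTT : τ ^ 2 - 4 * |K| ≤ T ^ 2 := by
        have h1 : |(T - τ) * (T + τ)| ≤ 2 * |K| * 2 := by
          rw [abs_mul]
          exact mul_le_mul hdT ((abs_add_le _ _).trans (by linarith)) (abs_nonneg _) (by positivity)
        linarith [(abs_le.1 h1).1]
      have hq : τ ^ 2 - 8 * |K| ≤ T ^ 2 / r := by
        rw [le_div_iff₀ hr0]
        rcases le_or_gt (τ ^ 2 - 8 * |K|) 0 with h | h
        · exact (mul_nonpos_of_nonpos_of_nonneg h hr0.le).trans (sq_nonneg _)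
        · refine (mul_le_mul_of_nonneg_left hr1 h.le).trans ?_
          nlinarith [(sq_le_one_iff_abs_le_one τ).2 hτ, abs_nonneg K, sq_nonneg |K|]
      have h := mul_le_mul_of_nonneg_left hq (mul_nonneg
        (show 0 ≤ 2 * (cosh b / cosh a) by positivity) (mul_nonneg (hwt t) (sq_nonneg (G t))))
      refine le_trans (le_trans (le_of_eq (by ring)) h) (le_of_eq ?_)
      have e2 : cosh a * cosh K * (1 + spin t * (tanh K * τ)) = cosh a * r := by rw [hr]; ring
      rw [e2]
      field_simp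
    rw [eX]
    have hba : cosh b / cosh a ≤ cosh a * cosh b := by
      rw [div_le_iff₀ (by linarith)]; nlinarith [mul_le_mul hca hca zero_le_one (by linarith)]
    have hS0 : 0 ≤ S := Finset.sum_nonneg fun t _ => mul_nonneg (hwt t) (sq_nonneg _)
    have h1 := mul_le_mul_of_nonneg_left hGm (show 0 ≤ 2 * (cosh b / cosh a) * τ ^ 2 by positivity)
    have h2 := mul_le_mul_of_nonneg_left (mul_le_mul_of_nonneg_right hba hS0) (show 0 ≤ 16 * |K| by positivity)
    have h3 := mul_le_mul_of_nonneg_left hN (abs_nonneg K)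
    linarith [mul_nonneg (abs_nonneg K) (mul_nonneg (show 0 ≤ cosh a * cosh b by positivity) hS0)]

end Vale.Agent.P150.Crit
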