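import Mathlib
import Vale.Agent.P150.Crit.Pair

/-!
Assembly of the pair inequality for P150.
-/

namespace Vale.Agent.P150.Crit

open Real

/-- Coefficients of the second-order form in the local means, and the estimates they satisfy. -/
theorem coef_bounds {K κ c τ ω k : ℝ} (hK : |K| ≤ k) (hk : k ≤ 1 / 100) (hτ : |τ| ≤ 1) (hω : |ω| ≤ 1)
    (hc : |c - 1| ≤ k ^ 2) (hκ : |κ - K| ≤ 2 * k ^ 3) :
    let A := c - K * τ * ω + K ^ 2 * ((1 - τ ^ 2) * (1 - ω ^ 2))
    let d := 1 - κ * τ * ω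
    |A - 1| ≤ 3 * k ∧ |d - 1| ≤ 2 * k ∧ |d * (2 * K * ω) - 2 * κ * ω * A| ≤ 100 * k ^ 2 ∧
      |d * (2 * K * τ) - 2 * κ * τ * A| ≤ 100 * k ^ 2 ∧
      |4 * κ ^ 2 * τ * ω * A - 2 * κ * (τ * d * (2 * K * ω) + ω * d * (2 * K * τ))
          - 4 * K ^ 2 * τ * ω * d ^ 2 + 8 * K ^ 2 * (τ * ω)| ≤ 400 * k ^ 3 := by
  intro A d
  have hk0 : 0 ≤ k := (abs_nonneg K).trans hK
  have hk2 : k ^ 2 ≤ k * (1 / 100) := by rw [pow_two]; exact mul_le_mul_of_nonneg_left hk hk0
  have hk3 : k ^ 3 ≤ k ^ 2 * (1 / 100) := by rw [pow_succ]; exact mul_le_mul_of_nonneg_left hk (sq_nonneg k)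
  have hv : ∀ y : ℝ, |y| ≤ 1 → |1 - y ^ 2| ≤ 1 := fun y hy => by
    rw [abs_of_nonneg (by linarith [(sq_le_one_iff_abs_le_one y).2 hy])]
    linarith [sq_nonneg y]
  have hτω : |τ * ω| ≤ 1 := by rw [abs_mul]; exact mul_le_one₀ hτ (abs_nonneg _) hω
  have hκk : |κ| ≤ 2 * k := by
    linarith [abs_sub_abs_le_abs_sub κ K]
  have hA : |A - 1| ≤ 3 * k := by
    have h1 : |K * τ * ω| ≤ k * 1 * 1 := mul3_le hK hτ hω
    have h2 : |K ^ 2 * ((1 - τ ^ 2) * (1 - ω ^ 2))| ≤ k ^ 2 * (1 * 1) := by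
      rw [abs_mul, abs_mul (1 - τ ^ 2), abs_pow]
      exact mul_le_mul (pow_le_pow_left₀ (abs_nonneg K) hK 2)
        (mul_le_mul (hv τ hτ) (hv ω hω) (abs_nonneg _) zero_le_one)
        (mul_nonneg (abs_nonneg _) (abs_nonneg _)) (sq_nonneg k)
    rw [show A - 1 = (c - 1) + -(K * τ * ω) + K ^ 2 * ((1 - τ ^ 2) * (1 - ω ^ 2)) by simp only [A]; ring]
    refine (abs_add_three _ _ _).trans ?_
    rw [abs_neg]
    linarith
  have hd : |d - 1| ≤ 2 * k := by
    rw [show d - 1 = -(κ * τ * ω) by simp only [d]; ring, abs_neg]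
    linarith [mul3_le hκk hτ hω]
  have lin : ∀ y : ℝ, |y| ≤ 1 → |d * (2 * K * y) - 2 * κ * y * A| ≤ 100 * k ^ 2 := fun y hy => by
    rw [show d * (2 * K * y) - 2 * κ * y * A
        = 2 * y * ((d - 1) * K + -(κ - K) + -(κ * (A - 1))) by ring, abs_mul, abs_mul, abs_two]
    have h1 : |(d - 1) * K| ≤ 2 * k * k := by rw [abs_mul]; exact mul_le_mul hd hK (abs_nonneg _) (by positivity)
    have h2 : |κ * (A - 1)| ≤ 2 * k * (3 * k) := by
      rw [abs_mul]; exact mul_le_mul hκk hA (abs_nonneg _) (by positivity)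
    have h3 := abs_add_three ((d - 1) * K) (-(κ - K)) (-(κ * (A - 1)))
    rw [abs_neg, abs_neg] at h3
    have h4 := mul_le_mul (mul_le_mul_of_nonneg_left hy zero_le_two) h3 (abs_nonneg _) (show (0 : ℝ) ≤ 2 * 1 by norm_num)
    linarith [sq_nonneg k]
  refine ⟨hA, hd, lin ω hω, lin τ hτ, ?_⟩
  rw [show 4 * κ ^ 2 * τ * ω * A - 2 * κ * (τ * d * (2 * K * ω) + ω * d * (2 * K * τ))
      - 4 * K ^ 2 * τ * ω * d ^ 2 + 8 * K ^ 2 * (τ * ω)
      = τ * ω * (4 * (κ * κ) * (A - 1) + 4 * (κ - K) * (κ + K) + -(8 * K * κ * (d - 1))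
          + (-(8 * K * (κ - K) * 1) + -(4 * (K * K) * ((d - 1) * (d + 1))))) by ring, abs_mul]
  refine (mul_le_of_le_one_left (abs_nonneg _) hτω).trans ((abs_add4 _ _ _ _).trans ?_)
  have hKK : |K * K| ≤ k * k := by rw [abs_mul]; exact mul_le_mul hK hK (abs_nonneg _) hk0
  have hκκ : |κ * κ| ≤ 2 * k * (2 * k) := by
    rw [abs_mul]; exact mul_le_mul hκk hκk (abs_nonneg _) (by positivity)
  have h8K : |8 * K| ≤ 8 * k := by rw [abs_mul]; norm_num; linarith
  have a1 : |4 * (κ * κ) * (A - 1)| ≤ 4 * (2 * k * (2 * k)) * (3 * k) :=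
    mul3_le (by norm_num) hκκ hA
  have a2 : |4 * (κ - K) * (κ + K)| ≤ 4 * (2 * k ^ 3) * (2 * k + k) :=
    mul3_le (by norm_num) hκ ((abs_add_le _ _).trans (add_le_add hκk hK))
  have a3 : |-(8 * K * κ * (d - 1))| ≤ 8 * k * (2 * k) * (2 * k) := by
    rw [abs_neg]; exact mul3_le h8K hκk hd
  have a4 : |-(8 * K * (κ - K) * 1)| ≤ 8 * k * (2 * k ^ 3) * 1 := by
    rw [abs_neg]; exact mul3_le h8K hκ (by norm_num)
  have a5 : |-(4 * (K * K) * ((d - 1) * (d + 1)))| ≤ 4 * (k * k) * (2 * k * 3) := by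
    rw [abs_neg]
    refine mul3_le (by norm_num) hKK ?_
    rw [abs_mul]
    refine mul_le_mul hd ?_ (abs_nonneg _) (by positivity)
    rw [abs_le]; constructor <;> linarith [(abs_le.1 hd).1, (abs_le.1 hd).2]
  have a45 := abs_add_le (-(8 * K * (κ - K) * 1)) (-(4 * (K * K) * ((d - 1) * (d + 1))))
  linarith [pow_nonneg hk0 3, mul_le_mul_of_nonneg_left hk (pow_nonneg hk0 3)]

/-- The local mean, the difference and the constraint, for one side. -/
theorem side_link {a K p : ℝ} (hK : |K| ≤ 1 / 100) (hp : p = 1 / cosh a) (G g : Bool → ℝ)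
    (hg : ∀ t, g t = G t * cosh (a + K * spin t)) (ω : ℝ) :
    let E := (g true - g false) / cosh K
    let Gm := (G true * (1 + ω) + G false * (1 - ω)) / 2
    (G true - G false) * (1 - tanh K * tanh a * ω) = p * E - 2 * tanh a * tanh K * Gm := by
  intro E Gm
  simp only [E, Gm, hg]
  rw [(shift_bounds (a := a) hK true).1, (shift_bounds (a := a) hK false).1, hp]
  simp only [spin, if_true, Bool.false_eq_true, if_false]
  field_simp
  ring

/-- Bound of the two values of one side by the local mean and the difference. -/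
theorem side_abs {G : Bool → ℝ} {ω d pE κτ k Gm : ℝ} (hω : |ω| ≤ 1) (hk : k ≤ 1 / 100)
    (hκτ : |κτ| ≤ 2 * k) (hd : 98 / 100 ≤ d)
    (hGm : Gm = (G true * (1 + ω) + G false * (1 - ω)) / 2)
    (h : (G true - G false) * d = pE - 2 * κτ * Gm) :
    |G true| + |G false| ≤ 22 / 10 * (|Gm| + |pE|) := by
  have h1 : |G true - G false| * d ≤ |pE| + 4 * k * |Gm| := by
    have e : |(G true - G false) * d| = |G true - G false| * d := by rw [abs_mul, abs_of_pos (by linarith : 0 < d)]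
    rw [← e, h]
    refine (abs_sub _ _).trans ?_
    rw [abs_mul, abs_mul, abs_two]
    nlinarith [abs_nonneg Gm]
  have hw : ∀ w : ℝ, |w| ≤ 2 → |w * (G true - G false) / 2| ≤ |G true - G false| := fun w hw => by
    rw [abs_div, abs_mul, abs_two, div_le_iff₀ two_pos, mul_comm _ (2 : ℝ)]
    exact mul_le_mul_of_nonneg_right hw (abs_nonneg _)
  have hT : |G true| ≤ |Gm| + |G true - G false| := by
    have e : G true = Gm + (1 - ω) * (G true - G false) / 2 := by rw [hGm]; ring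
    nth_rewrite 1 [e]
    exact (abs_add_le _ _).trans (add_le_add le_rfl (hw _ (by
      rw [abs_le]; constructor <;> linarith [(abs_le.1 hω).1, (abs_le.1 hω).2])))
  have hF : |G false| ≤ |Gm| + |G true - G false| := by
    have e : G false = Gm + -(1 + ω) * (G true - G false) / 2 := by rw [hGm]; ring
    nth_rewrite 1 [e]
    exact (abs_add_le _ _).trans (add_le_add le_rfl (hw _ (by
      rw [abs_le]; constructor <;> linarith [(abs_le.1 hω).1, (abs_le.1 hω).2])))
  nlinarith [abs_nonneg (G true - G false), abs_nonneg Gm, abs_nonneg pE,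
    mul_le_mul_of_nonneg_right hk (abs_nonneg Gm)]

/-- One state in the scaled variables. -/
theorem term_eq (a b K x y : ℝ) (s t : Bool) :
    wpair a b K s t * (x * (spin s - tanhAt a K t) * (y * (spin t - tanhAt b K s))
        + K * (x * (1 - tanhAt a K t ^ 2)) * (y * (1 - tanhAt b K s ^ 2)))
      = x / cosh (a + K * spin t) * (y / cosh (b + K * spin s))
        * ((cosh K - spin s * spin t * sinh K)
          * (spin s * spin t + K * ((1 + spin s * tanhAt a K t) * (1 + spin t * tanhAt b K s)))) := by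
  have h1 : ∀ (y : ℝ) (u : Bool), (1 + spin u * tanh y) * (spin u - tanh y) = spin u * (1 / cosh y ^ 2) := by
    intro y u
    rw [← one_sub_tanh_sq]
    rcases spin_cases u with hu | hu <;> rw [hu] <;> ring
  rw [wpair_eq]
  simp only [tanhAt]
  set α := a + K * spin t
  set γ := b + K * spin s
  rw [one_sub_tanh_sq, one_sub_tanh_sq]
  calc (cosh K - spin s * spin t * sinh K) * (cosh α * (1 + spin s * tanh α)) * (cosh γ * (1 + spin t * tanh γ))
        * (x * (spin s - tanh α) * (y * (spin t - tanh γ))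
          + K * (x * (1 / cosh α ^ 2)) * (y * (1 / cosh γ ^ 2)))
      = (cosh K - spin s * spin t * sinh K) * cosh α * cosh γ * x * y
        * (((1 + spin s * tanh α) * (spin s - tanh α)) * ((1 + spin t * tanh γ) * (spin t - tanh γ))
          + K * ((1 + spin s * tanh α) * (1 + spin t * tanh γ)) * (1 / cosh α ^ 2) * (1 / cosh γ ^ 2)) := by
        ring
    _ = _ := by
      rw [h1, h1]
      have hα := (cosh_pos α).ne'
      have hγ := (cosh_pos γ).ne'
      field_simp

/-- The error of the second-order expansion, in the local means. -/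
theorem rem_bound {G H : Bool → ℝ} {D : Bool → Bool → ℝ} {d k u v : ℝ} (hk : 0 ≤ k) (hd0 : 0 ≤ d)
    (hd : d ≤ 102 / 100) (hD : ∀ s t, |D s t| ≤ 60 * k ^ 3)
    (hG : |G true| + |G false| ≤ 22 / 10 * u) (hH : |H true| + |H false| ≤ 22 / 10 * v) :
    |d ^ 2 * ∑ s, ∑ t, G t * H s * D s t| ≤ 600 * k ^ 3 * (u * v) := by
  have hu : 0 ≤ u := by linarith [abs_nonneg (G true), abs_nonneg (G false)]
  have hv : 0 ≤ v := by linarith [abs_nonneg (H true), abs_nonneg (H false)]
  rw [abs_mul, abs_of_nonneg (sq_nonneg d)]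
  have h1 : |∑ s, ∑ t, G t * H s * D s t| ≤ (|G true| + |G false|) * (|H true| + |H false|) * (60 * k ^ 3) := by
    have hb : ∀ s t, |G t * H s * D s t| ≤ |G t| * |H s| * (60 * k ^ 3) := fun s t =>
      mul3_le le_rfl le_rfl (hD s t)
    have := Finset.abs_sum_le_sum_abs (fun s => ∑ t, G t * H s * D s t) Finset.univ
    simp only [Fintype.sum_bool] at this ⊢
    linarith [hb true true, hb true false, hb false true, hb false false,
      abs_add_le (G true * H true * D true true) (G false * H true * D true false),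
      abs_add_le (G true * H false * D false true) (G false * H false * D false false)]
  have h2 := mul_le_mul hG hH (by positivity) (by positivity)
  refine (mul_le_mul (pow_le_pow_left₀ hd0 hd 2) (h1.trans (mul_le_mul_of_nonneg_right h2 (by positivity)))
    (abs_nonneg _) (by positivity)).trans ?_
  have : 0 ≤ k ^ 3 * (u * v) := by positivity
  linarith

/-- Removing the factor `d²`. -/
theorem form_finish {F Z N d k : ℝ} (hk0 : 0 ≤ k) (hk : k ≤ 1 / 100) (hd : |d - 1| ≤ 2 * k)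
    (hZ0 : 0 ≤ Z) (hZN : Z ≤ N / 2) (key : -(8 * k ^ 2 * Z) - 3000 * k ^ 3 * N ≤ d ^ 2 * F) :
    -(8 * k ^ 2 * Z) - 4000 * k ^ 3 * N ≤ F := by
  have hd98 : 98 / 100 ≤ d := by linarith [(abs_le.1 hd).1]
  have hdk : 1 ≤ d ^ 2 * (1 + 5 * k) := by
    have h1 : (1 - 2 * k) ^ 2 ≤ d ^ 2 :=
      pow_le_pow_left₀ (by linarith) (by linarith [(abs_le.1 hd).1]) 2
    refine le_trans ?_ (mul_le_mul_of_nonneg_right h1 (by linarith))
    linarith [mul_le_mul_of_nonneg_left hk hk0, pow_nonneg hk0 3]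
  have hdd : (98 / 100) ^ 2 ≤ d ^ 2 := pow_le_pow_left₀ (by norm_num) hd98 2
  have hN : 0 ≤ N := by linarith
  refine le_of_mul_le_mul_left (a := d ^ 2) (le_trans ?_ key) (by positivity)
  have t1 := mul_le_mul_of_nonneg_left hdk (show 0 ≤ 8 * k ^ 2 * Z by positivity)
  have t2 := mul_le_mul_of_nonneg_left hZN (show 0 ≤ 40 * k ^ 3 * d ^ 2 by positivity)
  have t3 := mul_le_mul_of_nonneg_left hdd (show 0 ≤ 3980 * k ^ 3 * N by positivity)
  have t4 : 0 ≤ k ^ 3 * N := by positivity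
  linarith

/-- The bilinear part of the pair inequality. -/
theorem pair_form {a b K : ℝ} (hK : |K| ≤ 1 / 100) {g h : Bool → ℝ}
    (hgh : g true - g false = h true - h false) :
    let Gm := (g true / cosh (a + K) * (1 + tanh b) + g false / cosh (a - K) * (1 - tanh b)) / 2
    let Hm := (h true / cosh (b + K) * (1 + tanh a) + h false / cosh (b - K) * (1 - tanh a)) / 2;
    -(8 * |K| ^ 2 * |tanh a * tanh b * Gm * Hm|)
        - 4000 * |K| ^ 3 * ((Gm ^ 2 + Hm ^ 2) * (cosh a * cosh b))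
      ≤ ∑ s, ∑ t, wpair a b K s t * (g t * (spin s - tanhAt a K t) * (h s * (spin t - tanhAt b K s))
          + K * (g t * (1 - tanhAt a K t ^ 2)) * (h s * (1 - tanhAt b K s ^ 2))) := by
  intro Gm Hm
  simp only [term_eq]
  obtain ⟨hc, hs, hκ, -⟩ := small_bounds hK
  set k := |K| with hkd
  have hk0 : 0 ≤ k := abs_nonneg K
  set τ := tanh a with hτd
  set ω := tanh b with hωd
  set κ := tanh K with hκd
  set c := cosh K with hcd
  set G : Bool → ℝ := fun t => g t / cosh (a + K * spin t) with hG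
  set H : Bool → ℝ := fun s => h s / cosh (b + K * spin s) with hH
  set T : Bool → ℝ := tanhAt a K with hT
  set U : Bool → ℝ := tanhAt b K with hU
  have hτ : |τ| ≤ 1 := abs_tanh_le a
  have hω : |ω| ≤ 1 := abs_tanh_le b
  set A := c - K * τ * ω + K ^ 2 * ((1 - τ ^ 2) * (1 - ω ^ 2)) with hA
  set d := 1 - κ * τ * ω with hd
  set L : Bool → Bool → ℝ := fun s t => spin s * spin t * (c + K * τ * ω + K ^ 2 * ((1 - τ ^ 2) + (1 - ω ^ 2) - 1))
      + spin s * (K * τ + K ^ 2 * ω * ((1 - τ ^ 2) - 1)) + spin t * (K * ω + K ^ 2 * τ * ((1 - ω ^ 2) - 1))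
      - K ^ 2 * τ * ω with hL
  set M : Bool → Bool → ℝ := fun s t => (c - spin s * spin t * sinh K)
      * (spin s * spin t + K * ((1 + spin s * T t) * (1 + spin t * U s))) with hM
  have hr : ∀ s t, |M s t - L s t| ≤ 60 * k ^ 3 := fun s t =>
    kernel_bound le_rfl hK (spin_cases s) (spin_cases t) hτ hω (abs_tanh_le _) (abs_tanh_le _) hc hs
      (shift_bounds hK t).2 (shift_bounds hK s).2
  have hgG : ∀ t, g t = G t * cosh (a + K * spin t) := fun t => by
    simp only [hG]; rw [div_mul_cancel₀ _ (cosh_pos _).ne']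
  have hhH : ∀ s, h s = H s * cosh (b + K * spin s) := fun s => by
    simp only [hH]; rw [div_mul_cancel₀ _ (cosh_pos _).ne']
  have eGm : Gm = (G true * (1 + ω) + G false * (1 - ω)) / 2 := by
    simp [Gm, hG, spin, sub_eq_add_neg, hωd]
  have eHm : Hm = (H true * (1 + τ) + H false * (1 - τ)) / 2 := by
    simp [Hm, hH, spin, sub_eq_add_neg, hτd]
  set p := 1 / cosh a with hp
  set q := 1 / cosh b with hq
  set E := (g true - g false) / c with hE
  have hδG : (G true - G false) * d = p * E - 2 * τ * κ * Gm := by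
    have := side_link hK hp G g hgG ω
    simp only [← eGm] at this
    exact this
  have hδH : (H true - H false) * d = q * E - 2 * ω * κ * Hm := by
    have := side_link hK hq H h hhH τ
    simp only [← eHm, ← hgh] at this
    rw [show 1 - κ * τ * ω = 1 - κ * ω * τ by ring] at hd
    rw [hd]
    exact this
  obtain ⟨bA, bd, bl1, bl2, bγ⟩ := coef_bounds (k := k) le_rfl hK hτ hω hc hκ
  set R := d ^ 2 * ∑ s, ∑ t, G t * H s * (M s t - L s t) with hR
  have hp0 : 0 < p := by rw [hp]; positivity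
  have hq0 : 0 < q := by rw [hq]; positivity
  have hp1 : p ≤ 1 := by rw [hp]; exact div_le_one_of_le₀ (one_le_cosh a) (cosh_pos a).le
  have hq1 : q ≤ 1 := by rw [hq]; exact div_le_one_of_le₀ (one_le_cosh b) (cosh_pos b).le
  have hd98 : 98 / 100 ≤ d := by linarith [(abs_le.1 bd).1]
  have hd2 : d ≤ 102 / 100 := by linarith [(abs_le.1 bd).2]
  have hκy : ∀ y : ℝ, |y| ≤ 1 → |y * κ| ≤ 2 * k := fun y hy => by
    rw [abs_mul]
    exact (mul_le_of_le_one_left (abs_nonneg _) hy).trans (small_bounds hK).2.2.2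
  have sG := side_abs hω hK (hκy τ hτ) hd98 eGm (pE := p * E) (by rw [hδG]; ring)
  have sH := side_abs hτ hK (hκy ω hω) hd98 eHm (pE := q * E) (by rw [hδH]; ring)
  rw [abs_mul, abs_of_pos hp0] at sG
  rw [abs_mul, abs_of_pos hq0] at sH
  have hRb : |R| ≤ 600 * k ^ 3 * ((|Gm| + p * |E|) * (|Hm| + q * |E|)) :=
    rem_bound hk0 (by linarith) hd2 hr sG sH
  have key := form_lower (A := A) (c₁ := 2 * K * ω) (c₂ := 2 * K * τ)
    (γ := 4 * κ ^ 2 * τ * ω * A - 2 * κ * (τ * d * (2 * K * ω) + ω * d * (2 * K * τ))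
          - 4 * K ^ 2 * τ * ω * d ^ 2)
    hp0 hp1 hq0 hq1 hk0 hK (bA.trans (by linarith)) bl1 bl2 (by rw [sq_abs]; exact bγ)
    (by rw [sq_abs]) hRb hδG hδH
  rw [sq_abs] at key ⊢
  have eF : d ^ 2 * (A * (G true - G false) * (H true - H false) + 2 * K * ω * (G true - G false) * Hm
      + 2 * K * τ * Gm * (H true - H false) - 4 * K ^ 2 * τ * ω * Gm * Hm) + R
      = d ^ 2 * ∑ s, ∑ t, G t * H s * M s t := by
    simp only [hR, hL, Fintype.sum_bool, spin, if_true, Bool.false_eq_true, if_false, eGm, eHm, hA]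
    ring
  rw [eF] at key
  set F := ∑ s, ∑ t, G t * H s * M s t
  set Z := |τ * ω * Gm * Hm| with hZ
  set N := (Gm ^ 2 + Hm ^ 2) * (cosh a * cosh b) with hN
  have eN : (Gm ^ 2 + Hm ^ 2) / (p * q) = N := by rw [hN, hp, hq]; field_simp
  rw [eN] at key
  have hN0 : 0 ≤ N := by positivity
  have hZN : Z ≤ N / 2 := by
    rw [hZ, abs_mul, abs_mul]
    have h1 : |τ * ω| ≤ 1 := by rw [abs_mul]; exact mul_le_one₀ hτ (abs_nonneg _) hω
    have h2 := two_mul_le_add_sq |Gm| |Hm|
    rw [sq_abs, sq_abs] at h2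
    have h3 : |τ * ω| * |Gm| * |Hm| ≤ |Gm| * |Hm| :=
      mul_le_mul_of_nonneg_right (mul_le_of_le_one_left (abs_nonneg _) h1) (abs_nonneg _)
    have h4 : Gm ^ 2 + Hm ^ 2 ≤ N :=
      le_mul_of_one_le_right (by positivity) (one_le_mul_of_one_le_of_one_le (one_le_cosh a) (one_le_cosh b))
    linarith
  rw [← sq_abs K, ← hkd] at key ⊢
  exact form_finish hk0 hK bd (abs_nonneg _) hZN key

/-- **The pair inequality.** -/
theorem pair_ineq {a b K : ℝ} (hK : |K| ≤ 1 / 100) {g h : Bool → ℝ}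
    (hgh : g true - g false = h true - h false) :
    0 ≤ ∑ s, ∑ t, pairTerm a b K 5000 g h s t := by
  set G : Bool → ℝ := fun t => g t / cosh (a + K * spin t) with hG
  set H : Bool → ℝ := fun s => h s / cosh (b + K * spin s) with hH
  have form := pair_form (a := a) (b := b) hK hgh
  obtain ⟨nG, xG⟩ := side_bounds (a := a) (b := b) hK G
  obtain ⟨nH, xH⟩ := side_bounds (a := b) (b := a) hK H
  set Gm := (g true / cosh (a + K) * (1 + tanh b) + g false / cosh (a - K) * (1 - tanh b)) / 2 with hGm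
  set Hm := (h true / cosh (b + K) * (1 + tanh a) + h false / cosh (b - K) * (1 - tanh a)) / 2 with hHm
  have eGm : (G true * (1 + tanh b) + G false * (1 - tanh b)) / 2 = Gm := by
    simp [hG, hGm, spin, sub_eq_add_neg]
  have eHm : (H true * (1 + tanh a) + H false * (1 - tanh a)) / 2 = Hm := by
    simp [hH, hHm, spin, sub_eq_add_neg]
  simp only [eGm] at nG xG
  simp only [eHm] at nH xH
  have esym : ∀ s t, wpair b a K t s = wpair a b K s t := fun s t => by rw [wpair, wpair]; ring_nf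
  have eG2 : ∀ (y z : ℝ), z ^ 2 * (1 - tanh y ^ 2) = (z / cosh y) ^ 2 := fun y z => by
    rw [one_sub_tanh_sq, div_pow]; ring
  -- the four weighted squares in the original variables
  have i1 : ∑ s, ∑ t, wpair a b K s t * G t ^ 2
      = ∑ s, ∑ t, wpair a b K s t * (g t ^ 2 * (1 - tanhAt a K t ^ 2)) := by
    simp only [hG, tanhAt, eG2]
  have i2 : ∑ s, ∑ t, wpair b a K s t * H t ^ 2
      = ∑ s, ∑ t, wpair a b K s t * (h s ^ 2 * (1 - tanhAt b K s ^ 2)) := by
    rw [Finset.sum_comm]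
    simp only [esym, hH, tanhAt, eG2]
  have i3 : ∑ s, ∑ t, wpair a b K s t * (G t ^ 2 * (1 - tanhAt a K t ^ 2) * tanhAt a K t ^ 2)
      = ∑ s, ∑ t, wpair a b K s t * (g t * (1 - tanhAt a K t ^ 2) * tanhAt a K t) ^ 2 := by
    simp only [hG, tanhAt]
    refine Finset.sum_congr rfl fun s _ => Finset.sum_congr rfl fun t _ => ?_
    rw [← eG2]; ring
  have i4 : ∑ s, ∑ t, wpair b a K s t * (H t ^ 2 * (1 - tanhAt b K t ^ 2) * tanhAt b K t ^ 2)
      = ∑ s, ∑ t, wpair a b K s t * (h s * (1 - tanhAt b K s ^ 2) * tanhAt b K s) ^ 2 := by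
    rw [Finset.sum_comm]
    simp only [esym, hH, tanhAt]
    refine Finset.sum_congr rfl fun s _ => Finset.sum_congr rfl fun t _ => ?_
    rw [← eG2]; ring
  rw [i1] at nG xG
  rw [i2] at nH xH
  rw [i3] at xG
  rw [i4] at xH
  have etot : ∑ s, ∑ t, pairTerm a b K 5000 g h s t
      = (∑ s, ∑ t, wpair a b K s t * (g t * (spin s - tanhAt a K t) * (h s * (spin t - tanhAt b K s))
          + K * (g t * (1 - tanhAt a K t ^ 2)) * (h s * (1 - tanhAt b K s ^ 2))))
        + K ^ 2 * (∑ s, ∑ t, wpair a b K s t * (g t * (1 - tanhAt a K t ^ 2) * tanhAt a K t) ^ 2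
          + ∑ s, ∑ t, wpair a b K s t * (h s * (1 - tanhAt b K s ^ 2) * tanhAt b K s) ^ 2)
        + 5000 * |K| ^ 3 * (∑ s, ∑ t, wpair a b K s t * (g t ^ 2 * (1 - tanhAt a K t ^ 2))
          + ∑ s, ∑ t, wpair a b K s t * (h s ^ 2 * (1 - tanhAt b K s ^ 2))) := by
    simp only [pairTerm, Finset.mul_sum, ← Finset.sum_add_distrib]
    exact Finset.sum_congr rfl fun s _ => Finset.sum_congr rfl fun t _ => by ring
  rw [etot]
  -- the mixed term against the two weighted squares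
  have amgm : 8 * |tanh a * tanh b * Gm * Hm|
      ≤ 4 * (cosh b / cosh a) * tanh a ^ 2 * Gm ^ 2 + 4 * (cosh a / cosh b) * tanh b ^ 2 * Hm ^ 2 := by
    set r := √(cosh b / cosh a) with hr
    have hr0 : 0 < r := sqrt_pos.2 (div_pos (cosh_pos b) (cosh_pos a))
    have e1 : cosh b / cosh a = r ^ 2 := (sq_sqrt (div_pos (cosh_pos b) (cosh_pos a)).le).symm
    have e2 : cosh a / cosh b = r⁻¹ ^ 2 := by rw [inv_pow, ← e1, inv_div]
    have e3 : |tanh a * tanh b * Gm * Hm| = |r * (tanh a * Gm)| * |r⁻¹ * (tanh b * Hm)| := by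
      rw [← abs_mul]; congr 1; field_simp
    rw [e1, e2, e3]
    have h := two_mul_le_add_sq |r * (tanh a * Gm)| |r⁻¹ * (tanh b * Hm)|
    rw [sq_abs, sq_abs] at h
    linarith
  have hk0 : 0 ≤ |K| := abs_nonneg K
  have hK2 : |K| ^ 2 = K ^ 2 := sq_abs K
  rw [hK2] at form
  have t1 := mul_le_mul_of_nonneg_left amgm (sq_nonneg K)
  have t2 := mul_le_mul_of_nonneg_left (add_le_add xG xH) (sq_nonneg K)
  have t3 := mul_le_mul_of_nonneg_left (add_le_add nG nH) (show 0 ≤ 1400 * |K| ^ 3 by positivity)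
  have t4 : K ^ 2 * |K| = |K| ^ 3 := by rw [← hK2]; ring
  set NG := ∑ s, ∑ t, wpair a b K s t * (g t ^ 2 * (1 - tanhAt a K t ^ 2))
  set NH := ∑ s, ∑ t, wpair a b K s t * (h s ^ 2 * (1 - tanhAt b K s ^ 2))
  have hcc : 0 ≤ cosh a * cosh b := by positivity
  have hNG : 0 ≤ NG := le_trans (by positivity) nG
  have hNH : 0 ≤ NH := le_trans (by positivity) nH
  have t5 : K ^ 2 * (20 * |K| * NG) = 20 * |K| ^ 3 * NG := by rw [← t4]; ring
  have t6 : K ^ 2 * (20 * |K| * NH) = 20 * |K| ^ 3 * NH := by rw [← t4]; ring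
  have t7 : 0 ≤ |K| ^ 3 * (NG + NH) := by positivity
  have t8 : 0 ≤ |K| ^ 3 * ((Gm ^ 2 + Hm ^ 2) * (cosh a * cosh b)) := by positivity
  linarith

end Vale.Agent.P150.Crit
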