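import Mathlib
import Vale.Agent.P150.Crit.Defs
import Vale.Agent.P150.Crit.PairIneq

/-!
The second-order criterion for P150, assembled from the pair inequality.
-/

namespace Vale.Agent.P150.Crit

open Real Finset

variable {n : ℕ}

/-- The exponent of the weight. -/
noncomputable def pot (K : Fin n → Fin n → ℝ) (h : Fin n → ℝ) (x : Conf n) : ℝ :=
  Ent.qform K (fun i => spin (x i)) / 2 + Ent.lin h x

theorem sum_update (i : Fin n) (F : Conf n → ℝ) :
    ∑ x, ∑ b : Bool, F (Function.update x i b) = 2 * ∑ x, F x := by
  have e : ∀ x : Conf n, ∑ b : Bool, F (Function.update x i b) = F x + F (flipAt x i) := fun x => by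
    have hx : Function.update x i (x i) = x := Function.update_eq_self i x
    rw [Fintype.sum_bool, flipAt]
    cases hb : x i <;> rw [hb] at hx <;> rw [hx] <;> simp [add_comm]
  simp only [e, sum_add_distrib, Ent.sum_flip i F]
  ring

theorem sum_update2 (i j : Fin n) (F : Conf n → ℝ) :
    ∑ x, ∑ s : Bool, ∑ t : Bool, F (Function.update (Function.update x j t) i s) = 4 * ∑ x, F x := by
  have h1 := sum_update i F
  have h2 := sum_update j fun x => ∑ s : Bool, F (Function.update x i s)
  rw [h1] at h2
  have e : ∀ x : Conf n, ∑ s : Bool, ∑ t : Bool, F (Function.update (Function.update x j t) i s)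
      = ∑ t : Bool, ∑ s : Bool, F (Function.update (Function.update x j t) i s) := fun x => sum_comm
  simp only [e, h2]
  ring

variable {K : Fin n → Fin n → ℝ} {h : Fin n → ℝ}

theorem fld_update (hd : ∀ i, K i i = 0) (x : Conf n) (i : Fin n) (b : Bool) :
    fld K h (Function.update x i b) i = fld K h x i := by
  unfold fld
  congr 1
  refine sum_congr rfl fun j _ => ?_
  rcases eq_or_ne j i with rfl | hj
  · simp [hd]
  · rw [Function.update_of_ne hj]

theorem fld_shift (x : Conf n) (i j : Fin n) (t : Bool) :
    fld K h (Function.update x j t) i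
      = fld K h x i - K i j * spin (x j) + K i j * spin t := by
  unfold fld
  have e : ∀ m, K i m * spin (Function.update x j t m)
      = K i m * spin (x m) + if m = j then K i j * spin t - K i j * spin (x j) else 0 := fun m => by
    rcases eq_or_ne m j with rfl | hm
    · simp
    · simp [Function.update_of_ne hm, hm]
  simp only [e, sum_add_distrib, sum_ite_eq', mem_univ, if_true]
  ring

theorem pot_update (hs : ∀ i j, K i j = K j i) (hd : ∀ i, K i i = 0) (x : Conf n) (i : Fin n)
    (b : Bool) :
    pot K h (Function.update x i b) = pot K h x + (spin b - spin (x i)) * fld K h x i := by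
  set v : Fin n → ℝ := fun m => spin (x m) with hv
  set δ := spin b - spin (x i) with hδ
  have ev : ∀ m, spin (Function.update x i b m) = v m + if m = i then δ else 0 := fun m => by
    rcases eq_or_ne m i with rfl | hm
    · simp [hv, hδ]
    · simp [hv, Function.update_of_ne hm, hm]
  have e1 : Ent.qform K (fun m => spin (Function.update x i b m))
      = Ent.qform K v + 2 * δ * ∑ m, K i m * v m := by
    simp only [Ent.qform, ev, add_mul, mul_add, sum_add_distrib, ite_mul, mul_ite, zero_mul, mul_zero,
      sum_ite_eq', sum_ite_irrel, sum_const_zero, mem_univ, if_true, hd, ite_self, add_zero]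
    rw [mul_sum]
    have e2 : ∑ m, v m * K m i * δ + ∑ m, δ * K i m * v m = ∑ m, 2 * δ * (K i m * v m) := by
      rw [← sum_add_distrib]
      exact sum_congr rfl fun m _ => by rw [hs m i]; ring
    linarith
  have e3 : Ent.lin h (Function.update x i b) = Ent.lin h x + δ * h i := by
    simp only [Ent.lin, ev, mul_add, sum_add_distrib, mul_ite, mul_zero, sum_ite_eq', mem_univ, if_true]
    simp only [hv]
    ring
  rw [pot, pot, e1, e3, fld]
  simp only [hv]
  ring

theorem coupW_eq (x : Conf n) : Ent.coupW K h x = exp (pot K h x) := rfl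

/-- The damped gradient. -/
noncomputable def damp (K : Fin n → Fin n → ℝ) (h : Fin n → ℝ) (f : Conf n → ℝ) (x : Conf n)
    (i : Fin n) : ℝ :=
  grad f x i * (1 - tanh (fld K h x i) ^ 2)

/-- The conditional mean of the squared residual. -/
noncomputable def sqres (K : Fin n → Fin n → ℝ) (h : Fin n → ℝ) (f : Conf n → ℝ) (x : Conf n)
    (i : Fin n) : ℝ :=
  grad f x i ^ 2 * (1 - tanh (fld K h x i) ^ 2)

theorem grad_update (f : Conf n → ℝ) (x : Conf n) (i : Fin n) (b : Bool) :
    grad f (Function.update x i b) i = grad f x i := by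
  simp only [grad, Function.update_idem]

theorem sum_resid_sq (hs : ∀ i j, K i j = K j i) (hd : ∀ i, K i i = 0) (f : Conf n → ℝ) (i : Fin n) :
    ∑ x, Ent.coupW K h x * resid K h f x i ^ 2 = ∑ x, Ent.coupW K h x * sqres K h f x i := by
  have h2 : ∀ F : Conf n → ℝ, ∑ x, F x = (∑ x, ∑ b : Bool, F (Function.update x i b)) / 2 :=
    fun F => by rw [sum_update i F]; ring
  rw [h2, h2 fun x => Ent.coupW K h x * sqres K h f x i]
  congr 1
  refine sum_congr rfl fun x _ => ?_
  simp only [resid, sqres, coupW_eq, pot_update hs hd, fld_update hd, grad_update,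
    Function.update_self, exp_add, sub_mul, exp_sub, mul_comm (spin _) (fld K h x i), exp_spin,
    Fintype.sum_bool]
  simp only [spin, if_true, Bool.false_eq_true, if_false]
  ring

/-- The summand of the pair inequality in the original variables. -/
noncomputable def pairSum (K : Fin n → Fin n → ℝ) (h : Fin n → ℝ) (f : Conf n → ℝ) (i j : Fin n) : ℝ :=
  ∑ x, Ent.coupW K h x *
    (resid K h f x i * resid K h f x j + K i j * damp K h f x i * damp K h f x j
      + K i j ^ 2 * ((damp K h f x i * tanh (fld K h x i)) ^ 2 + (damp K h f x j * tanh (fld K h x j)) ^ 2)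
      + 5000 * |K i j| ^ 3 * (sqres K h f x i + sqres K h f x j))

theorem pairSum_nonneg (hs : ∀ i j, K i j = K j i) (hd : ∀ i, K i i = 0) (f : Conf n → ℝ)
    {i j : Fin n} (hij : i ≠ j) (hk : |K i j| ≤ 1 / 100) : 0 ≤ pairSum K h f i j := by
  have h4 := sum_update2 i j fun x => Ent.coupW K h x *
    (resid K h f x i * resid K h f x j + K i j * damp K h f x i * damp K h f x j
      + K i j ^ 2 * ((damp K h f x i * tanh (fld K h x i)) ^ 2 + (damp K h f x j * tanh (fld K h x j)) ^ 2)
      + 5000 * |K i j| ^ 3 * (sqres K h f x i + sqres K h f x j))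
  suffices hx : 0 ≤ ∑ x : Conf n, ∑ s : Bool, ∑ t : Bool, Ent.coupW K h (Function.update (Function.update x j t) i s) *
      (resid K h f (Function.update (Function.update x j t) i s) i
          * resid K h f (Function.update (Function.update x j t) i s) j
        + K i j * damp K h f (Function.update (Function.update x j t) i s) i
          * damp K h f (Function.update (Function.update x j t) i s) j
        + K i j ^ 2 * ((damp K h f (Function.update (Function.update x j t) i s) i
              * tanh (fld K h (Function.update (Function.update x j t) i s) i)) ^ 2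
            + (damp K h f (Function.update (Function.update x j t) i s) j
              * tanh (fld K h (Function.update (Function.update x j t) i s) j)) ^ 2)
        + 5000 * |K i j| ^ 3 * (sqres K h f (Function.update (Function.update x j t) i s) i
            + sqres K h f (Function.update (Function.update x j t) i s) j)) by
    rw [h4] at hx
    rw [pairSum]
    linarith
  refine sum_nonneg fun x _ => ?_
  set a := fld K h x i - K i j * spin (x j) with ha
  set b := fld K h x j - K j i * spin (x i) with hb
  set c₀ := pot K h x - spin (x i) * a - spin (x j) * b - K i j * (spin (x i) * spin (x j)) with hc₀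
  set g : Bool → ℝ := fun t => grad f (Function.update x j t) i with hg
  set g' : Bool → ℝ := fun s => grad f (Function.update x i s) j with hg'
  have hcomm : ∀ s t : Bool, Function.update (Function.update x j t) i s
      = Function.update (Function.update x i s) j t := fun s t => Function.update_comm hij.symm t s x
  have efi : ∀ s t, fld K h (Function.update (Function.update x j t) i s) i = a + K i j * spin t :=
    fun s t => by rw [fld_update hd, fld_shift, ha]
  have efj : ∀ s t, fld K h (Function.update (Function.update x j t) i s) j = b + K i j * spin s :=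
    fun s t => by rw [hcomm, fld_update hd, fld_shift, hb, hs j i]
  have eri : ∀ s t, (Function.update (Function.update x j t) i s) i = s := fun s t => Function.update_self _ _ _
  have erj : ∀ s t, (Function.update (Function.update x j t) i s) j = t := fun s t => by
    rw [Function.update_of_ne hij.symm, Function.update_self]
  have egi : ∀ s t, grad f (Function.update (Function.update x j t) i s) i = g t := fun s t => grad_update f _ i s
  have egj : ∀ s t, grad f (Function.update (Function.update x j t) i s) j = g' s := fun s t => by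
    rw [hcomm]; exact grad_update f _ j t
  have epot : ∀ s t, pot K h (Function.update (Function.update x j t) i s)
      = c₀ + (a * spin s + b * spin t + K i j * (spin s * spin t)) := fun s t => by
    rw [pot_update hs hd, pot_update hs hd, fld_shift, Function.update_of_ne hij, hc₀, ha, hb, hs j i]
    ring
  have hgh : g true - g false = g' true - g' false := by
    simp only [hg, hg', grad, Function.update_comm hij]
    ring
  have key := pair_ineq (a := a) (b := b) hk (g := g) (h := g') hgh
  refine le_of_le_of_eq (mul_nonneg (exp_pos c₀).le key) ?_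
  rw [mul_sum]
  refine sum_congr rfl fun s _ => ?_
  rw [mul_sum]
  refine sum_congr rfl fun t _ => ?_
  simp only [pairTerm, resid, damp, sqres, coupW_eq, efi, efj, eri, erj, egi, egj, epot, wpair, tanhAt,
    exp_add]
  ring

/-- **The second-order criterion.** -/
theorem critStmt : CritStmt := by
  refine ⟨10000, 1 / 100, by norm_num, by norm_num, fun n K h l R k hs hd hl hR hk hk0 _ _ hl0 f => ?_⟩
  set W := Ent.coupW K h with hW
  have hWp : ∀ x, 0 < W x := fun x => exp_pos _
  have hdiag : ∀ i, pairSum K h f i i = ∑ x, W x * resid K h f x i ^ 2 := fun i =>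
    sum_congr rfl fun x _ => by simp [hW, hd, pow_two]
  have hge : ∑ i, ∑ x, W x * sqres K h f x i ≤ ∑ i, ∑ j, pairSum K h f i j := by
    refine sum_le_sum fun i _ => ?_
    rw [← sum_resid_sq hs hd f i, ← hdiag i]
    refine single_le_sum (f := fun j => pairSum K h f i j) (fun j _ => ?_) (mem_univ i)
    rcases eq_or_ne i j with rfl | hij
    · rw [hdiag]; exact sum_nonneg fun x _ => mul_nonneg (hWp x).le (sq_nonneg _)
    · exact pairSum_nonneg hs hd f hij ((hk i j).trans hk0)
  have hpoint : ∀ x, ∑ i, ∑ j,
      (resid K h f x i * resid K h f x j + K i j * damp K h f x i * damp K h f x j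
        + K i j ^ 2 * ((damp K h f x i * tanh (fld K h x i)) ^ 2 + (damp K h f x j * tanh (fld K h x j)) ^ 2)
        + 5000 * |K i j| ^ 3 * (sqres K h f x i + sqres K h f x j))
      ≤ (∑ i, resid K h f x i) ^ 2 + (max l (2 * R) + 10000 * k * R) * ∑ i, sqres K h f x i := by
    intro x
    set φ := fun i => damp K h f x i * tanh (fld K h x i) with hφ
    set N := fun i => sqres K h f x i with hN
    have hN0 : ∀ i, 0 ≤ N i := fun i => mul_nonneg (sq_nonneg _) (by
      linarith [(sq_le_one_iff_abs_le_one _).2 (abs_tanh_le (fld K h x i))])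
    have e1 : ∑ i, ∑ j, resid K h f x i * resid K h f x j = (∑ i, resid K h f x i) ^ 2 := by
      rw [pow_two, sum_mul_sum]
    have e2 : ∑ i, ∑ j, K i j * damp K h f x i * damp K h f x j ≤ l * ∑ i, damp K h f x i ^ 2 := by
      refine le_trans (le_of_eq ?_) (hl (damp K h f x))
      exact sum_congr rfl fun i _ => sum_congr rfl fun j _ => by ring
    have rowsum : ∀ F : Fin n → ℝ, (∀ i, 0 ≤ F i) →
        ∑ i, ∑ j, K i j ^ 2 * (F i + F j) ≤ 2 * R * ∑ i, F i := fun F hF => by
      have a1 : ∑ i, ∑ j, K i j ^ 2 * F i ≤ R * ∑ i, F i := by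
        rw [mul_sum]
        exact sum_le_sum fun i _ => by rw [← sum_mul]; exact mul_le_mul_of_nonneg_right (hR i) (hF i)
      have a2 : ∑ i, ∑ j, K i j ^ 2 * F j = ∑ i, ∑ j, K i j ^ 2 * F i := by
        rw [sum_comm]
        exact sum_congr rfl fun i _ => sum_congr rfl fun j _ => by rw [hs j i]
      simp only [mul_add, sum_add_distrib]
      linarith
    have e3 : ∑ i, ∑ j, K i j ^ 2 * (φ i ^ 2 + φ j ^ 2) ≤ 2 * R * ∑ i, φ i ^ 2 :=
      rowsum (fun i => φ i ^ 2) fun i => sq_nonneg _
    have e4 : ∑ i, ∑ j, 5000 * |K i j| ^ 3 * (N i + N j) ≤ 10000 * k * R * ∑ i, N i := by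
      have a1 : ∀ i j, 5000 * |K i j| ^ 3 * (N i + N j) ≤ 5000 * k * (K i j ^ 2 * (N i + N j)) := fun i j => by
        have h3 : |K i j| ^ 3 ≤ k * K i j ^ 2 := by
          rw [pow_succ, sq_abs, mul_comm]; exact mul_le_mul_of_nonneg_right (hk i j) (sq_nonneg _)
        have := mul_le_mul_of_nonneg_right h3 (add_nonneg (hN0 i) (hN0 j))
        linarith
      refine (sum_le_sum fun i _ => sum_le_sum fun j _ => a1 i j).trans ?_
      simp only [← mul_sum]
      have hk' : 0 ≤ 5000 * k := by linarith
      have := mul_le_mul_of_nonneg_left (rowsum N hN0) hk'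
      linarith
    have e5 : l * ∑ i, damp K h f x i ^ 2 + 2 * R * ∑ i, φ i ^ 2 ≤ max l (2 * R) * ∑ i, N i := by
      rw [mul_sum, mul_sum, mul_sum, ← sum_add_distrib]
      refine sum_le_sum fun i _ => ?_
      simp only [hN, hφ, sqres, damp]
      set T := tanh (fld K h x i)
      set y := grad f x i
      have hT : T ^ 2 ≤ 1 := (sq_le_one_iff_abs_le_one _).2 (abs_tanh_le _)
      have a1 : l * (1 - T ^ 2) + 2 * R * ((1 - T ^ 2) * T ^ 2) ≤ max l (2 * R) := by
        have b1 := mul_le_mul_of_nonneg_right (le_max_left l (2 * R)) (show 0 ≤ 1 - T ^ 2 by linarith)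
        have b2 := mul_le_mul_of_nonneg_right (le_max_right l (2 * R))
          (show 0 ≤ (1 - T ^ 2) * T ^ 2 by nlinarith [sq_nonneg T])
        have b3 : (1 - T ^ 2) + (1 - T ^ 2) * T ^ 2 ≤ 1 := by nlinarith [sq_nonneg (T ^ 2)]
        have b4 := mul_le_mul_of_nonneg_left b3 (hl0.trans (le_max_left l (2 * R)))
        linarith
      have a2 := mul_le_mul_of_nonneg_left a1 (show 0 ≤ y ^ 2 * (1 - T ^ 2) from mul_nonneg (sq_nonneg _) (by linarith))
      linarith
    simp only [sum_add_distrib, e1]
    simp only [hφ, hN] at e3 e4 e5 ⊢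
    linarith
  have hsum : ∑ i, ∑ j, pairSum K h f i j
      ≤ ∑ x, W x * ((∑ i, resid K h f x i) ^ 2 + (max l (2 * R) + 10000 * k * R) * ∑ i, sqres K h f x i) := by
    refine le_trans (le_of_eq ?_) (sum_le_sum fun x _ => mul_le_mul_of_nonneg_left (hpoint x) (hWp x).le)
    simp only [pairSum, ← hW, mul_sum]
    refine (sum_congr rfl fun i _ => sum_comm).trans sum_comm
  have hD : ∑ x, W x * ∑ i, resid K h f x i ^ 2 = ∑ i, ∑ x, W x * sqres K h f x i := by
    simp only [mul_sum]
    rw [sum_comm]
    exact sum_congr rfl fun i _ => sum_resid_sq hs hd f i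
  have hS : ∑ x, W x * ∑ i, sqres K h f x i = ∑ i, ∑ x, W x * sqres K h f x i := by
    simp only [mul_sum]; exact sum_comm
  have e : ∑ x, W x * ((∑ i, resid K h f x i) ^ 2 + (max l (2 * R) + 10000 * k * R) * ∑ i, sqres K h f x i)
      = ∑ x, W x * (∑ i, resid K h f x i) ^ 2
        + (max l (2 * R) + 10000 * k * R) * ∑ x, W x * ∑ i, sqres K h f x i := by
    rw [mul_sum (a := max l (2 * R) + 10000 * k * R), ← sum_add_distrib]
    exact sum_congr rfl fun x _ => by ring
  rw [e, hS] at hsum
  rw [hD]
  linarith

end Vale.Agent.P150.Crit
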